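import Vale.Agent.P216.T695.Iface

set_option linter.unusedSectionVars false

/-!
# P216, Theorem B, [TIGHT] parts T1 and T2

Inequality (*) and its equality case at one level: `Vale.Agent.P216.B633.propT12`.
-/

open Module LinearMap

namespace Vale.Agent.P216.B633

open Vale.Agent.P216.AS (USeq)
open Vale.Agent.P216.T695
open Vale.Agent.P216.Tight923

/-! ### Sums over one parity -/

theorem finsum_parity (q : ℕ) (hq : q < 2) (f : ℕ → ℕ) (N m : ℕ) (hN : ∀ n ≥ N, f n = 0)
    (hm : N ≤ q + 2 * m) :
    (∑ᶠ n, if n % 2 = q then f n else 0) = ∑ i ∈ Finset.range m, f (q + 2 * i) := by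
  have hinj : Function.Injective fun i => q + 2 * i := fun a b h => by
    have : q + 2 * a = q + 2 * b := h
    omega
  rw [finsum_eq_sum_of_support_subset (s := (Finset.range m).image fun i => q + 2 * i)]
  · rw [Finset.sum_image fun a _ b _ h => hinj h]
    refine Finset.sum_congr rfl fun i _ => ?_
    rw [if_pos (by omega)]
  · intro n hn
    rw [Function.mem_support] at hn
    have h1 : n % 2 = q := by
      by_contra h
      exact hn (if_neg h)
    rw [if_pos h1] at hn
    have h2 : n < N := by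
      by_contra h
      exact hn (hN n (not_lt.1 h))
    rw [Finset.coe_image]
    refine ⟨n / 2, ?_, ?_⟩
    · rw [Finset.coe_range, Set.mem_Iio]; omega
    · change q + 2 * (n / 2) = n
      omega

theorem sum_tsub_add {m : ℕ} {a b : ℕ → ℕ} (h : ∀ n, b n ≤ a n) :
    ∑ i ∈ Finset.range m, (a i - b i) + ∑ i ∈ Finset.range m, b i =
      ∑ i ∈ Finset.range m, a i := by
  rw [← Finset.sum_add_distrib]
  exact Finset.sum_congr rfl fun i _ => Nat.sub_add_cancel (h i)

/-! ### The Gysin count -/

section Count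

variable {k : Type} [Field k] {F H : ℕ → Type}
  [∀ n, AddCommGroup (F n)] [∀ n, Module k (F n)]
  [∀ n, AddCommGroup (H n)] [∀ n, Module k (H n)]
  [∀ n, FiniteDimensional k (F n)] [∀ n, FiniteDimensional k (H n)] (G : USeq k F H)

/-- `dim ker u` in degree `n - 1` -/
noncomputable def kap : ℕ → ℕ
  | 0 => 0
  | n + 1 => finrank k (LinearMap.ker (G.u n))

theorem sum_h (q : ℕ) (hq : q < 2) (m : ℕ) :
    ∑ i ∈ Finset.range (m + 1), finrank k (H (q + 2 * i)) =
      finrank k (F (q + 2 * m)) +
        ∑ i ∈ Finset.range m, finrank k (LinearMap.ker (G.u (q + 2 * i))) +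
        ∑ i ∈ Finset.range (m + 1), kap G (q + 2 * i) := by
  induction m with
  | zero =>
    have h0 := G.e0
    have h1 := G.e1
    rcases Nat.lt_or_ge q 1 with h | h
    · obtain rfl : q = 0 := by omega
      simp only [zero_add, Finset.range_one, Finset.sum_singleton, mul_zero,
        Finset.range_zero, Finset.sum_empty, add_zero]
      rw [h0]
      rfl
    · obtain rfl : q = 1 := by omega
      simp only [zero_add, Finset.range_one, Finset.sum_singleton, mul_zero,
        Finset.range_zero, Finset.sum_empty, add_zero]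
      rw [h1]
      rfl
  | succ m ih =>
    have h2 := G.e2 (q + 2 * m)
    rw [Finset.sum_range_succ, ih,
      Finset.sum_range_succ (fun i => finrank k (LinearMap.ker (G.u (q + 2 * i)))) m,
      Finset.sum_range_succ (fun i => kap G (q + 2 * i)) (m + 1)]
    have h3 : kap G (q + 2 * (m + 1)) = finrank k (LinearMap.ker (G.u (q + 2 * m + 1))) := rfl
    have h4 : finrank k (H (q + 2 * (m + 1))) = finrank k (H (q + 2 * m + 2)) := rfl
    have h5 : finrank k (F (q + 2 * (m + 1))) = finrank k (F (q + 2 * m + 2)) := rfl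
    omega

theorem tele (a w κ β : ℕ → ℕ) (h0 : a 0 = w 0) (hs : ∀ i, a (i + 1) + w i + β i = w (i + 1) + κ i)
    (m : ℕ) : ∑ i ∈ Finset.range (m + 1), a i + ∑ i ∈ Finset.range m, β i =
      w m + ∑ i ∈ Finset.range m, κ i := by
  induction m with
  | zero => simp [h0]
  | succ m ih =>
    have h1 := hs m
    rw [Finset.sum_range_succ a, Finset.sum_range_succ β, Finset.sum_range_succ κ]
    omega

/-- telescoping count for a graded submodule `W` stable under `u` -/
theorem sum_a (q : ℕ) (hq : q < 2) (W : ∀ n, Submodule k (F n))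
    (hW : ∀ n, (W n).map (G.u n) ≤ W (n + 2)) (m : ℕ) :
    ∑ i ∈ Finset.range (m + 1), finrank k ((W (q + 2 * i)).map (G.π (q + 2 * i))) +
      ∑ i ∈ Finset.range m,
        ((finrank k (W (q + 2 * i + 2) ⊓ LinearMap.range (G.u (q + 2 * i)) :
            Submodule k (F (q + 2 * i + 2))) -
          finrank k ((W (q + 2 * i)).map (G.u (q + 2 * i)))) +
        (finrank k (LinearMap.ker (G.u (q + 2 * i))) -
          finrank k (W (q + 2 * i) ⊓ LinearMap.ker (G.u (q + 2 * i)) :
            Submodule k (F (q + 2 * i))))) =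
      finrank k (W (q + 2 * m)) +
        ∑ i ∈ Finset.range m, finrank k (LinearMap.ker (G.u (q + 2 * i))) := by
  refine tele (fun i => finrank k ((W (q + 2 * i)).map (G.π (q + 2 * i))))
    (fun i => finrank k (W (q + 2 * i))) (fun i => finrank k (LinearMap.ker (G.u (q + 2 * i))))
    (fun i => (finrank k (W (q + 2 * i + 2) ⊓ LinearMap.range (G.u (q + 2 * i)) :
            Submodule k (F (q + 2 * i + 2))) -
          finrank k ((W (q + 2 * i)).map (G.u (q + 2 * i)))) +
        (finrank k (LinearMap.ker (G.u (q + 2 * i))) -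
          finrank k (W (q + 2 * i) ⊓ LinearMap.ker (G.u (q + 2 * i)) :
            Submodule k (F (q + 2 * i))))) ?_ (fun m => ?_) m
  · have key : ∀ n, n < 2 → finrank k ((W n).map (G.π n)) = finrank k (W n) := by
      intro n hn
      have h := finrank_map_add (G.π n) (W n)
      have h1 : LinearMap.ker (G.π n) = ⊥ := by
        rcases Nat.lt_or_ge n 1 with h | h
        · obtain rfl : n = 0 := by omega
          exact LinearMap.ker_eq_bot.2 G.inj0
        · obtain rfl : n = 1 := by omega
          exact LinearMap.ker_eq_bot.2 G.inj1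
      rw [h1, inf_bot_eq, finrank_bot] at h
      omega
    exact key _ (by omega)
  · have h1 := finrank_map_add (G.π (q + 2 * m + 2)) (W (q + 2 * m + 2))
    have h2 := finrank_map_add (G.u (q + 2 * m)) (W (q + 2 * m))
    have h3 : LinearMap.ker (G.π (q + 2 * m + 2)) = LinearMap.range (G.u (q + 2 * m)) :=
      LinearMap.exact_iff.1 (G.ex3 (q + 2 * m))
    rw [h3] at h1
    have h4 : finrank k ((W (q + 2 * m)).map (G.u (q + 2 * m))) ≤
        finrank k (W (q + 2 * m + 2) ⊓ LinearMap.range (G.u (q + 2 * m)) :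
            Submodule k (F (q + 2 * m + 2))) := by
      refine Submodule.finrank_mono (le_inf (hW _) ?_)
      rintro _ ⟨x, -, rfl⟩
      exact ⟨x, rfl⟩
    have h5 : finrank k (W (q + 2 * m) ⊓ LinearMap.ker (G.u (q + 2 * m)) :
            Submodule k (F (q + 2 * m))) ≤ finrank k (LinearMap.ker (G.u (q + 2 * m))) :=
      Submodule.finrank_mono inf_le_right
    have h6 : finrank k ((W (q + 2 * (m + 1))).map (G.π (q + 2 * (m + 1)))) =
        finrank k ((W (q + 2 * m + 2)).map (G.π (q + 2 * m + 2))) := rfl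
    have h7 : finrank k (W (q + 2 * (m + 1))) = finrank k (W (q + 2 * m + 2)) := rfl
    omega

end Count

/-! ### Localisation -/

section Local

variable {k : Type} [Field k] {F H' Hi Fi : ℕ → Type}
  [∀ n, AddCommGroup (F n)] [∀ n, Module k (F n)]
  [∀ n, AddCommGroup (H' n)] [∀ n, Module k (H' n)]
  [∀ n, AddCommGroup (Hi n)] [∀ n, Module k (Hi n)]
  [∀ n, AddCommGroup (Fi n)] [∀ n, Module k (Fi n)]
  [∀ n, FiniteDimensional k (F n)] [∀ n, FiniteDimensional k (H' n)]
  {u : ∀ n, F n →ₗ[k] F (n + 2)} (L : Loc k F H' u)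

theorem loc_ext {q m N e N' : ℕ} (hN : ∀ e ≥ N, ∀ x, (∀ j, L.ℓ e j x = 0) → x = 0)
    (hN' : ∀ n ≥ N', Subsingleton (H' n)) (he : N ≤ e) (heq : e % 2 = q) (hm : N' ≤ q + 2 * m)
    (x : F e) (h : ∀ i < m, L.ℓ e (q + 2 * i) x = 0) : x = 0 := by
  refine hN e he x fun j => ?_
  rcases Nat.lt_or_ge j (q + 2 * m) with h1 | h1
  · by_cases h2 : j % 2 = q
    · have h3 : j = q + 2 * (j / 2) := by omega
      rw [h3]
      exact h _ (by omega)
    · exact L.par e j (by omega) x
  · have := hN' j (by omega)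
    exact Subsingleton.elim _ _

theorem finrank_loc {q m N e N' N₁ : ℕ} (_hq : q < 2)
    (hN : ∀ e ≥ N, ∀ x, (∀ j, L.ℓ e j x = 0) → x = 0)
    (hN1 : ∀ e ≥ N₁, ∀ h : (∀ j, H' j), (∀ j, (e + j) % 2 = 1 → h j = 0) →
      ∃ x, ∀ j, L.ℓ e j x = h j)
    (hN' : ∀ n ≥ N', Subsingleton (H' n)) (he : N ≤ e) (he1 : N₁ ≤ e) (heq : e % 2 = q)
    (hm : N' ≤ q + 2 * m) :
    finrank k (F e) = ∑ i ∈ Finset.range m, finrank k (H' (q + 2 * i)) := by
  let Φ : F e →ₗ[k] (∀ i : Fin m, H' (q + 2 * (i : ℕ))) := LinearMap.pi fun i => L.ℓ e (q + 2 * i)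
  have hb : Function.Bijective Φ := by
    constructor
    · rw [injective_iff_map_eq_zero]
      intro x hx
      refine loc_ext L hN hN' he heq hm x fun i hi => ?_
      exact congrFun hx ⟨i, hi⟩
    · intro h
      obtain ⟨x, hx⟩ := hN1 e he1 (∑ i : Fin m, Pi.single (q + 2 * (i : ℕ)) (h i)) (by
        intro j hj
        rw [Finset.sum_apply]
        refine Finset.sum_eq_zero fun i _ => ?_
        exact Pi.single_eq_of_ne (by omega) _)
      refine ⟨x, funext fun i => ?_⟩
      change L.ℓ e (q + 2 * i) x = h i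
      rw [hx, Finset.sum_apply, Finset.sum_eq_single i]
      · exact Pi.single_eq_same _ _
      · intro j _ hj
        refine Pi.single_eq_of_ne (fun h => hj ?_) _
        apply Fin.ext
        omega
      · intro h
        exact absurd (Finset.mem_univ _) h
  rw [LinearEquiv.finrank_eq (LinearEquiv.ofBijective Φ hb), Module.finrank_pi_fintype,
    Finset.sum_range]

theorem finrank_W_le {q m N e N' : ℕ} (rF : Fi e →ₗ[k] F e) (rH' : ∀ n, Hi n →ₗ[k] H' n)
    (hN : ∀ e ≥ N, ∀ x, (∀ j, L.ℓ e j x = 0) → x = 0)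
    (hN' : ∀ n ≥ N', Subsingleton (H' n)) (he : N ≤ e) (heq : e % 2 = q)
    (hm : N' ≤ q + 2 * m) (hg : ∀ j x, L.ℓ e j (rF x) ∈ LinearMap.range (rH' j)) :
    finrank k (LinearMap.range rF) ≤
      ∑ i ∈ Finset.range m, finrank k (LinearMap.range (rH' (q + 2 * i))) := by
  let Φ : LinearMap.range rF →ₗ[k] (∀ i : Fin m, LinearMap.range (rH' (q + 2 * (i : ℕ)))) :=
    LinearMap.pi fun i => LinearMap.codRestrict _
      ((L.ℓ e (q + 2 * i)).comp (LinearMap.range rF).subtype) (by
        rintro ⟨_, x, rfl⟩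
        exact hg _ x)
  have hinj : Function.Injective Φ := by
    rw [injective_iff_map_eq_zero]
    intro x hx
    apply Subtype.ext
    refine loc_ext L hN hN' he heq hm x.1 fun i hi => ?_
    exact congrArg Subtype.val (congrFun hx ⟨i, hi⟩)
  refine (LinearMap.finrank_le_finrank_of_injective hinj).trans ?_
  rw [Module.finrank_pi_fintype, Finset.sum_range]

end Local

/-! ### The theorem -/

theorem propT12 : PropT12 := by
  intro k _ Hi Fi H F H' _ _ _ _ _ _ _ _ _ _ _ _ _ ui πi G L rH rF rH' hu hπ hg hfin hfin' q hq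
    hsurj
  obtain ⟨N₀, hN₀⟩ := hfin
  obtain ⟨N₀', hN₀'⟩ := hfin'
  obtain ⟨N₁, hN₁⟩ := L.inj
  obtain ⟨N₂, hN₂⟩ := L.surj
  let W : ∀ n, Submodule k (F n) := fun n => LinearMap.range (rF n)
  have hW : ∀ n, (W n).map (G.u n) ≤ W (n + 2) := by
    rintro n _ ⟨_, ⟨x, rfl⟩, rfl⟩
    exact ⟨ui n x, hu n x⟩
  have hWπ : ∀ n, n % 2 = q → (W n).map (G.π n) = LinearMap.range (rH n) := by
    intro n hn
    apply le_antisymm
    · rintro _ ⟨_, ⟨x, rfl⟩, rfl⟩
      exact ⟨πi n x, (hπ n x).symm⟩
    · rintro _ ⟨y, rfl⟩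
      obtain ⟨x, rfl⟩ := hsurj n hn y
      exact ⟨rF n x, ⟨x, rfl⟩, hπ n x⟩
  -- the basic identity for all large `m`
  have key : ∀ m, N₀ + N₀' + N₁ + N₂ ≤ m →
      Rinf k rH' q + ∑ i ∈ Finset.range (m + 1), kap G (q + 2 * i) +
        ∑ i ∈ Finset.range m,
        ((finrank k (W (q + 2 * i + 2) ⊓ LinearMap.range (G.u (q + 2 * i)) :
            Submodule k (F (q + 2 * i + 2))) -
          finrank k ((W (q + 2 * i)).map (G.u (q + 2 * i)))) +
        (finrank k (LinearMap.ker (G.u (q + 2 * i))) -
          finrank k (W (q + 2 * i) ⊓ LinearMap.ker (G.u (q + 2 * i)) :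
            Submodule k (F (q + 2 * i))))) ≤ Rinf k rH q := by
    intro m hm
    have e1 : Rinf k rH q = ∑ i ∈ Finset.range (m + 1),
        (finrank k (H (q + 2 * i)) - finrank k (LinearMap.range (rH (q + 2 * i)))) := by
      refine finsum_parity q hq
        (fun n => finrank k (H n) - finrank k (LinearMap.range (rH n))) N₀ (m + 1) ?_ (by omega)
      intro n hn
      have := hN₀ n hn
      change finrank k (H n) - _ = 0
      rw [finrank_zero_of_subsingleton, Nat.zero_sub]
    have e2 : Rinf k rH' q = ∑ i ∈ Finset.range (m + 1),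
        (finrank k (H' (q + 2 * i)) - finrank k (LinearMap.range (rH' (q + 2 * i)))) := by
      refine finsum_parity q hq
        (fun n => finrank k (H' n) - finrank k (LinearMap.range (rH' n))) N₀' (m + 1) ?_
        (by omega)
      intro n hn
      have := hN₀' n hn
      change finrank k (H' n) - _ = 0
      rw [finrank_zero_of_subsingleton, Nat.zero_sub]
    have e3 := sum_tsub_add (m := m + 1) (a := fun i => finrank k (H (q + 2 * i)))
      (b := fun i => finrank k (LinearMap.range (rH (q + 2 * i))))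
      fun n => Submodule.finrank_le _
    have e4 := sum_tsub_add (m := m + 1) (a := fun i => finrank k (H' (q + 2 * i)))
      (b := fun i => finrank k (LinearMap.range (rH' (q + 2 * i))))
      fun n => Submodule.finrank_le _
    have e5 := sum_h G q hq m
    have e6 := sum_a G q hq W hW m
    have e7 : ∑ i ∈ Finset.range (m + 1), finrank k ((W (q + 2 * i)).map (G.π (q + 2 * i))) =
        ∑ i ∈ Finset.range (m + 1), finrank k (LinearMap.range (rH (q + 2 * i))) :=
      Finset.sum_congr rfl fun i _ => by rw [hWπ _ (by omega)]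
    have e8 := finrank_loc L hq (m := m + 1) (e := q + 2 * m) hN₁ hN₂ hN₀' (by omega)
      (by omega) (by omega) (by omega)
    have e9 := finrank_W_le L (q := q) (m := m + 1) (e := q + 2 * m) (rF (q + 2 * m)) rH' hN₁ hN₀'
      (by omega) (by omega) (by omega) (fun j x => hg _ j x)
    have e10 : finrank k (W (q + 2 * m)) = finrank k (LinearMap.range (rF (q + 2 * m))) := rfl
    rw [e1, e2]
    rw [e7, e10] at e6
    rw [e8] at e5
    beta_reduce at e3 e4
    omega
  refine ⟨?_, fun hle => ?_⟩
  · have := key _ le_rfl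
    omega
  -- the equality case
  have hkap : ∀ i, kap G (q + 2 * i) = 0 := by
    intro i
    have h1 := key (N₀ + N₀' + N₁ + N₂ + i) (by omega)
    have h2 : ∑ j ∈ Finset.range (N₀ + N₀' + N₁ + N₂ + i + 1), kap G (q + 2 * j) = 0 := by omega
    exact (Finset.sum_eq_zero_iff.1 h2) i (Finset.mem_range.2 (by omega))
  have hβγ : ∀ i, finrank k (W (q + 2 * i + 2) ⊓ LinearMap.range (G.u (q + 2 * i)) :
            Submodule k (F (q + 2 * i + 2))) ≤
          finrank k ((W (q + 2 * i)).map (G.u (q + 2 * i))) ∧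
        finrank k (LinearMap.ker (G.u (q + 2 * i))) ≤
          finrank k (W (q + 2 * i) ⊓ LinearMap.ker (G.u (q + 2 * i)) :
            Submodule k (F (q + 2 * i))) := by
    intro i
    have h1 := key (N₀ + N₀' + N₁ + N₂ + i + 1) (by omega)
    have h2 : ∑ i ∈ Finset.range (N₀ + N₀' + N₁ + N₂ + i + 1),
        ((finrank k (W (q + 2 * i + 2) ⊓ LinearMap.range (G.u (q + 2 * i)) :
            Submodule k (F (q + 2 * i + 2))) -
          finrank k ((W (q + 2 * i)).map (G.u (q + 2 * i)))) +
        (finrank k (LinearMap.ker (G.u (q + 2 * i))) -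
          finrank k (W (q + 2 * i) ⊓ LinearMap.ker (G.u (q + 2 * i)) :
            Submodule k (F (q + 2 * i))))) = 0 := by omega
    have h3 := (Finset.sum_eq_zero_iff.1 h2) i (Finset.mem_range.2 (by omega))
    omega
  have hker0 : ∀ e, e % 2 ≠ q → ∀ x, G.u e x = 0 → x = 0 := by
    intro e he x hx
    have h1 : LinearMap.ker (G.u e) = ⊥ := by
      apply Submodule.finrank_eq_zero.1
      rcases Nat.eq_zero_or_pos q with rfl | hq0
      · have h2 := hkap ((e + 1) / 2)
        rw [show 0 + 2 * ((e + 1) / 2) = e + 1 by omega] at h2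
        exact h2
      · obtain rfl : q = 1 := by omega
        have h2 := hkap (e / 2)
        rw [show 1 + 2 * (e / 2) = e + 1 by omega] at h2
        exact h2
    have h2 : x ∈ LinearMap.ker (G.u e) := hx
    rw [h1] at h2
    exact h2
  have hkerW : ∀ e, e % 2 = q → LinearMap.ker (G.u e) ≤ W e := by
    intro e he
    have h1 := (hβγ (e / 2)).2
    rw [show q + 2 * (e / 2) = e by omega] at h1
    have h2 := Submodule.eq_of_le_of_finrank_le (inf_le_right : W e ⊓ LinearMap.ker (G.u e) ≤ _) h1
    rw [← h2]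
    exact inf_le_left
  have hsat : ∀ e, e % 2 = q → W (e + 2) ⊓ LinearMap.range (G.u e) ≤ (W e).map (G.u e) := by
    intro e he
    have h1 := (hβγ (e / 2)).1
    rw [show q + 2 * (e / 2) = e by omega] at h1
    have hle' : (W e).map (G.u e) ≤ W (e + 2) ⊓ LinearMap.range (G.u e) :=
      le_inf (hW _) (by
        rintro _ ⟨x, -, rfl⟩
        exact ⟨x, rfl⟩)
    exact (Submodule.eq_of_le_of_finrank_le hle' h1).ge
  constructor
  · intro e he x hx
    obtain ⟨M, hM⟩ := mem_tor.1 hx
    clear hx
    induction M generalizing e with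
    | zero => exact hM
    | succ M ih =>
      have h1 : G.u e x = 0 := ih (e + 2) (by omega) (G.u e x) hM
      exact hker0 e he x h1
  · intro e he x hx
    obtain ⟨M, hM⟩ := mem_tor.1 hx
    clear hx
    change x ∈ W e
    induction M generalizing e with
    | zero =>
      have : x = 0 := hM
      rw [this]
      exact Submodule.zero_mem _
    | succ M ih =>
      have h1 : G.u e x ∈ W (e + 2) := ih (e + 2) (by omega) hM
      obtain ⟨w, hw, hw'⟩ := hsat e he ⟨h1, x, rfl⟩
      have h2 : x - w ∈ LinearMap.ker (G.u e) := by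
        rw [LinearMap.mem_ker, map_sub, hw', sub_self]
      have h3 := (W e).add_mem (hkerW e he h2) hw
      rwa [sub_add_cancel] at h3

end Vale.Agent.P216.B633
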