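import Vale.Agent.P216.B633.AdaptG

set_option linter.unusedSectionVars false

/-!
# P216, Theorem B: lifts from signs of operators which exist only level by level

`S.WOp α δ φ s` = a map from the groups of the level `φ` to those of the level `s` (pull back under
a map `X_s → X_φ`), compatible with the Gysin sequences up to the signs `α`, `δ`.  No naturality, no
involution, no uniqueness: `TSys.surjective_of_wop`.
-/

open Module LinearMap Set

namespace Vale.Agent.P216.B633

open Vale.Agent.P216.AS (USeq)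
open Vale.Agent.P216.T695
open Vale.Agent.P216.B64 GM L250
open Vale.Agent.P216.Tight923 (Inv)

namespace TSys

variable {k : Type} [Field k] {p : ℕ} {crit : Set ℝ} (S : TSys k p crit)

/-- a map from the level `φ` to the level `s` -/
structure WOp (α δ : k) (φ s : ℝ) where
  A : ∀ n, S.F φ n →ₗ[k] S.F s n
  B : ∀ n, S.H φ n →ₗ[k] S.H s n
  hπ : ∀ n x, B n ((S.G φ).π n x) = (S.G s).π n (A n x)
  hu : ∀ n x, A (n + 2) ((S.G φ).u n x) = α • (S.G s).u n (A n x)
  hd : ∀ n x, A n ((S.G φ).d n x) = δ • (S.G s).d n (B (n + 1) x)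

variable {S}

/-- composition with the reversal -/
def WOp.rev {α δ : k} {φ s : ℝ} (W : S.WOp α δ φ s) : S.WOp (-α) (-δ) φ s where
  A n := (S.I s).rF n ∘ₗ W.A n
  B n := (S.I s).rE n ∘ₗ W.B n
  hπ n x := by
    rw [LinearMap.comp_apply, W.hπ, (S.I s).hπ]; rfl
  hu n x := by
    rw [LinearMap.comp_apply, W.hu, map_smul, (S.I s).hu, smul_neg, neg_smul]; rfl
  hd n x := by
    rw [LinearMap.comp_apply, W.hd, map_smul, (S.I s).hd, smul_neg, neg_smul]; rfl

variable (S)

/-- `u ^ m y` with `π y` global -/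
def Dg (t : ℝ) : ℕ → ∀ n, Submodule k (S.F t n)
  | 0, n => (LinearMap.range (S.rH t n)).comap ((S.G t).π n)
  | _ + 1, 0 => ⊥
  | _ + 1, 1 => ⊥
  | m + 1, n + 2 => (Dg t m n).map ((S.G t).u n)

variable {S}

theorem ρ_mem_Dg {t T : ℝ} (h : t ≤ T)
    (hst : ∀ e (x : S.H T e), (S.TH e).ρ t T h x ∈ LinearMap.range (S.rH t e)) (m n : ℕ)
    {y : S.F T n} (hy : y ∈ Dv (S.G T).u m n) : (S.TF n).ρ t T h y ∈ S.Dg t m n := by
  induction m generalizing n with
  | zero =>
    change (S.G t).π n ((S.TF n).ρ t T h y) ∈ LinearMap.range (S.rH t n)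
    rw [← S.ρ_π]
    exact hst _ _
  | succ m ih =>
    rcases n with _ | _ | n
    · have : y = 0 := hy
      rw [this, map_zero]; exact Submodule.zero_mem _
    · have : y = 0 := hy
      rw [this, map_zero]; exact Submodule.zero_mem _
    · obtain ⟨w, hw, rfl⟩ := hy
      rw [S.ρ_u]
      exact ⟨_, ih n hw, rfl⟩

theorem WOp.key {α δ : k} {φ s : ℝ} (W : S.WOp α δ φ s) (hs : s ≤ φ) (hα : α * α = 1)
    {σ : ℕ → k} (hB : ∀ e (x : S.Hi e), W.B e (S.rH φ e x) = σ e • S.rH s e x) (m n : ℕ)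
    {y : S.F φ n} (hy : y ∈ S.Dg φ m n) :
    α ^ m • W.A n y - σ (n - 2 * m) • (S.TF n).ρ s φ hs y ∈ Dv (S.G s).u (m + 1) n := by
  induction m generalizing n with
  | zero =>
    obtain ⟨x, hx⟩ : (S.G φ).π n y ∈ LinearMap.range (S.rH φ n) := hy
    have h1 : (S.G s).π n (α ^ 0 • W.A n y - σ (n - 2 * 0) • (S.TF n).ρ s φ hs y) = 0 := by
      rw [pow_zero, one_smul, map_sub, map_smul, ← W.hπ, ← S.ρ_π, ← hx, hB, (S.TH n).ρ_ev,
        mul_zero, Nat.sub_zero, sub_self]
    generalize α ^ 0 • W.A n y - σ (n - 2 * 0) • (S.TF n).ρ s φ hs y = z at h1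
    rcases n with _ | _ | n
    · have : z = 0 := (S.G s).inj0 (by rw [h1, map_zero])
      rw [this]; exact Submodule.zero_mem _
    · have : z = 0 := (S.G s).inj1 (Eq.trans h1 (map_zero ((S.G s).π 1)).symm)
      rw [this]; exact Submodule.zero_mem _
    · obtain ⟨w, rfl⟩ := ((S.G s).ex3 n z).1 h1
      exact ⟨w, Submodule.mem_top, rfl⟩
  | succ m ih =>
    rcases n with _ | _ | n
    · have : y = 0 := hy
      rw [this, map_zero, map_zero, smul_zero, smul_zero, sub_zero]; exact Submodule.zero_mem _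
    · have : y = 0 := hy
      rw [this, map_zero, map_zero, smul_zero, smul_zero, sub_zero]; exact Submodule.zero_mem _
    · obtain ⟨w, hw, rfl⟩ := hy
      have h1 := ih n hw
      refine ⟨_, h1, ?_⟩
      rw [W.hu, S.ρ_u, map_sub, map_smul, map_smul, smul_smul, pow_succ, mul_assoc, hα, mul_one,
        show n + 2 - 2 * (m + 1) = n - 2 * m by omega]

/-- **lifts from signs, level by level** -/
theorem surjective_of_wop {a : ℕ → ℝ} (ha : RegCof crit a) {α δ : k} (hα : α * α = 1)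
    (σ : ℕ → k)
    (hst : ∀ t, 0 ≤ t → ∃ T, ∃ h : t ≤ T, ∀ e (x : S.H T e),
      (S.TH e).ρ t T h x ∈ LinearMap.range (S.rH t e))
    (hW : ∀ s, 0 ≤ s → ∃ φ, s ≤ φ ∧ ∃ W : S.WOp α δ φ s, ∀ e (x : S.Hi e),
      W.B e (S.rH φ e x) = σ e • S.rH s e x) (n : ℕ)
    (hne : ∀ m e, e + 2 * m = n → σ e ≠ δ * σ (n + 1) * α ^ m) :
    Function.Surjective (S.πi (n + 1)) := by
  intro x
  apply ((S.Gi ha).ex1 n x).1
  change S.di n x = 0
  have main : ∀ m s, 0 ≤ s → S.rF s n (S.di n x) ∈ Dv (S.G s).u m n := by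
    intro m
    induction m with
    | zero => exact fun _ _ => Submodule.mem_top
    | succ m ih =>
      intro s hs
      obtain ⟨φ, hφ, W, hB⟩ := hW s hs
      obtain ⟨T, hT, hstT⟩ := hst φ (hs.trans hφ)
      have h1 := ih T (hs.trans (hφ.trans hT))
      rcases Nat.lt_or_ge n (2 * m) with h | h
      · rw [Dv_eq_bot _ _ _ h] at h1
        have h3 : S.rF T n (S.di n x) = 0 := h1
        rw [← (S.TF n).ρ_ev s T (hφ.trans hT), h3, map_zero]
        exact Submodule.zero_mem _
      · have h3 := ρ_mem_Dg hT hstT m n h1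
        rw [(S.TF n).ρ_ev] at h3
        have h4 := W.key hφ hα hB m n h3
        rw [(S.TF n).ρ_ev] at h4
        change α ^ m • W.A n (S.rF φ n (S.di n x)) - σ (n - 2 * m) • S.rF s n (S.di n x) ∈ _ at h4
        rw [rF_di, W.hd, hB, map_smul, ← rF_di, smul_smul, smul_smul, ← sub_smul] at h4
        have h5 : α ^ m * δ * σ (n + 1) - σ (n - 2 * m) ≠ 0 := fun h0 =>
          hne m (n - 2 * m) (by omega) (by linear_combination -h0)
        have h6 := Submodule.smul_mem _ (α ^ m * δ * σ (n + 1) - σ (n - 2 * m))⁻¹ h4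
        rwa [smul_smul, inv_mul_cancel₀ h5, one_smul] at h6
  refine (S.TF n).ext fun t => ?_
  change S.rF t n (S.di n x) = S.rF t n 0
  have h1 := main (n + 1) (max t 0) (le_max_right _ _)
  rw [Dv_eq_bot _ _ _ (by omega)] at h1
  have h3 : S.rF (max t 0) n (S.di n x) = 0 := h1
  rw [map_zero, ← (S.TF n).ρ_ev t (max t 0) (le_max_left _ _), h3, map_zero]

end TSys

end Vale.Agent.P216.B633
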