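import Vale.Agent.P216.DV706.PInst
import Vale.Agent.P216.B64.RhoDef
import Vale.Agent.P216.B633.WOp
import Vale.Agent.P216.DV706.WOpOf
import Vale.Agent.P216.H971.Rho

/-!
# P216, Theorem B, `n = 1 (mod 4)`: lifts from the composite of the reversal and a self map of
degree `-1`
-/

open Set Topology
open Module (finrank)
open Vale.Agent.P216.H288 Vale.Agent.P216.H494 Vale.Agent.P216.L250

namespace Vale.Agent.P216.B633

open AS GM B64 B609 DV706

/-! ### Signs -/

theorem sign_x1 {n : ℕ} (hn : 4 ≤ n) (hn4 : n % 4 = 1) (i : ℕ) :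
    kk n i * (n - 1) / 2 % 2 = 0 := by
  unfold kk
  obtain ⟨a, rfl⟩ : ∃ a, n = 4 * a + 1 := ⟨n / 4, by omega⟩
  rw [if_pos (by omega)]
  have : (i + 1) * (4 * a + 1 - 1) = 4 * ((i + 1) * a) := by
    rw [show 4 * a + 1 - 1 = 4 * a by omega]; ring
  omega

theorem sign_y1 {n : ℕ} (hn : 4 ≤ n) (hn4 : n % 4 = 1) (i : ℕ) :
    (kk n i * (n - 1) + 1 + 1) / 2 % 2 = 1 := by
  have := sign_x1 hn hn4 i
  omega

/-- sign of the composite of the reversal and the self map on the global classes -/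
noncomputable def sg1 (k : Type) [Field k] (e : ℕ) : k :=
  if e % 2 = 0 then (-1) ^ (e / 2) else (-1) ^ ((e + 1) / 2)

theorem sg1_ne {k : Type} [Field k] (h2 : (2 : k) ≠ 0) {n m e : ℕ} (hn : (n + 1) % 2 = 0)
    (he : e + 2 * m = n) : sg1 k e ≠ -1 * sg1 k (n + 1) * (-1) ^ m := by
  have hsq : ∀ l : ℕ, (-1 : k) ^ l * (-1 : k) ^ l = 1 := fun l => by rw [← mul_pow]; simp
  unfold sg1
  rw [if_neg (by omega), if_pos hn]
  have h1 : (n + 1) / 2 = (e + 1) / 2 + m := by omega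
  rw [h1, pow_add]
  intro h
  have h3 : (2 : k) * (-1) ^ ((e + 1) / 2) = 0 := by
    linear_combination h - (-1 : k) ^ ((e + 1) / 2) * hsq m
  have h4 : (2 : k) = (2 * (-1) ^ ((e + 1) / 2)) * (-1 : k) ^ ((e + 1) / 2) := by
    rw [mul_assoc, hsq, mul_one]
  rw [h3, zero_mul] at h4
  exact h2 h4

namespace XIso

variable {M : Type} [MetricSpace M] {n : ℕ} {B : ℝ} {k : Type} [Field k]
  {p : ℕ} {crit : Set ℝ} {S : TSys k p crit} (Φ : XIso M S) (X : XOut M n B k)

/-- **lifts for `n = 1 (mod 4)`** from operators `W` induced by approximations of the self map -/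
theorem lift1 {a : ℕ → ℝ} (ha : RegCof crit a) (h2 : (2 : k) ≠ 0) (hn : 4 ≤ n)
    (hn4 : n % 4 = 1) (hB : 0 < B)
    (hW : ∀ s, 0 ≤ s → ∃ φ, s ≤ φ ∧ ∃ W : S.WOp 1 1 φ s,
      W.B 0 (S.rH φ 0 (Φ.gh X 0)) = S.rH s 0 (Φ.gh X 0) ∧
      (∀ i, W.B _ (S.rH φ _ (Φ.gh X (kk n i * (n - 1)))) =
        (-1 : k) ^ (i + 1) • S.rH s _ (Φ.gh X (kk n i * (n - 1)))) ∧
      ∀ i, W.B _ (S.rH φ _ (Φ.gh X (kk n i * (n - 1) + 1))) =
        (-1 : k) ^ (i + 1) • S.rH s _ (Φ.gh X (kk n i * (n - 1) + 1)))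
    (e : ℕ) (he : e % 2 = (n - 1) % 2) : Function.Surjective (S.πi e) := by
  have hsq : ∀ l : ℕ, (-1 : k) ^ l * (-1 : k) ^ l = 1 := fun l => by rw [← mul_pow]; simp
  rcases e with _ | e
  · exact (S.Gi ha).surj0
  refine S.surjective_of_wop ha (α := -1) (δ := -1) (by ring) (sg1 k) (fun t ht => ?_)
    (fun s hs => ?_) e fun m e' h => sg1_ne h2 (by omega) h
  · refine ⟨t + B, by linarith, fun i x => ?_⟩
    rw [Φ.range_rH_eq X ha hB ht (by linarith) le_rfl i]
    exact ⟨x, rfl⟩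
  · obtain ⟨φ, hφ, W, h0, hx, hy⟩ := hW s hs
    refine ⟨φ, hφ, W.rev, fun i x => ?_⟩
    obtain ⟨c, rfl⟩ := Φ.exists_smul X hB i x
    rw [map_smul, map_smul, map_smul, smul_comm]
    congr 1
    change (S.I s).rE i (W.B i (S.rH φ i (Φ.gh X i))) = _
    by_cases hD : Deg n i
    · have hr : ∀ {c' : k}, (∀ t, hpull k (umap_rev t) i (X.g i t) = c' • X.g i t) →
          (S.I s).rE i (S.rH s i (Φ.gh X i)) = c' • S.rH s i (Φ.gh X i) := fun h => by
        have := congrArg (S.rH s i) (Φ.rE_gh X ha h)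
        rwa [map_smul] at this
      rcases hD with rfl | ⟨j, rfl | rfl⟩
      · rw [h0, hr (c' := 1) (fun t => by simpa using X.rev_zero t)]
        simp [sg1]
      · have h3 := e_par hn j
        rw [hx, map_smul, hr (fun t => X.rev_x j t), smul_smul, hsq, sg1, if_pos (by omega),
          npk (b := 0) (sign_x1 hn hn4 j), pow_zero]
      · have h3 := e_par hn j
        rw [hy, map_smul, hr (fun t => X.rev_y j t), smul_smul, sg1, if_neg (by omega),
          npk (b := 1) (sign_y1 hn hn4 j), pow_one, pow_succ]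
        congr 1
        linear_combination -hsq j
    · have h3 : Φ.gh X i = 0 := Φ.gh_zero X hD
      rw [h3, map_zero, map_zero, map_zero, map_zero, smul_zero]

end XIso

/-! ### The operators -/

section Main

variable {M : Type} [MetricSpace M] [CompactSpace M] (G : GeoList M)
  (hD : DescentStmt (Hol.triv : Hol M) G)

/-- `(g, z) ↦ (R g, z)` -/
def liftR (R : LM M → LM M) (q : LM M × ℂ) : LM M × ℂ := (R q.1, q.2)

theorem isMap_liftR {R : LM M → LM M} {s φ : ℝ} (hc : ContinuousOn R (XL M s))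
    (hm : MapsTo R (XL M s) (XL M φ)) :
    IsMap (fun _ : Unit => (S0 G hD).τ) (fun _ : Unit => (S0 G hD).τ) ((S0 G hD).X s)
      ((S0 G hD).X φ) (liftR R) := by
  refine IsMap.of_continuousOn ((S0 G hD).compact s) ?_ (fun q hq => ⟨hm hq.1, hq.2⟩)
    fun _ _ _ => rfl
  exact (hc.comp continuous_fst.continuousOn fun q hq => hq.1).prodMk continuous_snd.continuousOn

theorem umap_of {R : LM M → LM M} {s φ : ℝ} (hc : ContinuousOn R (XL M s))
    (hm : MapsTo R (XL M s) (XL M φ)) : UMap (XL M s) (XL M φ) R :=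
  IsMap.of_continuousOn (isCompact_XE (le_max_right _ _)) hc hm fun i => i.elim

theorem phi_pull {k : Type} [Field k] {R : LM M → LM M} {s φ : ℝ}
    (h : UMap (XL M s) (XL M φ) R)
    (h' : IsMap (fun _ : Unit => (S0 G hD).τ) (fun _ : Unit => (S0 G hD).τ) ((S0 G hD).X s)
      ((S0 G hD).X φ) (liftR R)) (n : ℕ) (x : (S0 G hD).V k φ n) :
    phi G hD k s n (pull (fun _ : Unit => (-1 : k)) h' n x) =
      hpull k h n (phi G hD k φ n x) := by
  obtain ⟨c, hc, rfl⟩ := AS.H.exists_mk x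
  rfl

theorem stableBars1 (hL : (S0 G hD).LevelBound) (h0 : (S0 G hD).BaseFin) {n : ℕ} {B : ℝ}
    (hB : 0 < B) (hX : ∀ (k : Type) [Field k], (2 : k) ≠ 0 → Nonempty (XOut M n B k)) :
    (S0 G hD).StableBars B := by
  intro p hpp h2 s t hs h h' i
  obtain ⟨X⟩ := hX (ZMod p) (GSys.two_ne_zero' h2)
  exact (xiso G hD (ZMod p) hpp.out h2 (finAt G hD hL h0 p h2)).stable X hB hs.le h
    (h.trans h') i

end Main

/-- **R1**: the instance for the spheres of dimension `n = 1 (mod 4)`. -/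
theorem pRhoGoal : PRhoGoal := by
  intro n hn hn4 M _ _ ρ hρ hs hLOC hM G f ε B hε hB hX
  obtain ⟨e⟩ := hM
  have hD := descentStmt (Hol.triv : Hol M) G hρ hs
  have hL := GM.levelBound (GM.f1 hρ hs) hLOC GM.tw Hol.triv G hD
  have h0 := baseFin G hD e
  obtain ⟨K, hK⟩ := (S0 G hD).bars_of_levelBound hL hB.le (stableBars1 G hD hL h0 hB
    fun k _ h2 => ⟨(hX k h2).choose⟩) h0
  obtain ⟨a, ha⟩ := exists_regCof (exists_reg G hD)
  refine ⟨K, B, B, fun p hp h2 => ⟨ZMod p, @ZMod.instField p ⟨hp⟩, ?_⟩⟩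
  have hpp : Fact p.Prime := ⟨hp⟩
  have h2' := GSys.two_ne_zero' h2
  obtain ⟨X, hXs⟩ := hX (ZMod p) h2'
  have hf := finAt G hD hL h0 p h2
  let Φ := xiso G hD (ZMod p) hp h2 hf
  have hlift : ∀ i, i % 2 = (n - 1) % 2 →
      Function.Surjective ((T0 G hD (ZMod p) hp h2 hf).πi i) := by
    refine fun i hi => Φ.lift1 X ha h2' hn hn4 hB (fun s hs0 => ?_) i hi
    obtain ⟨s', hs', R, hc, hm, hrot, -, hap⟩ := H971.exists_approx hρ hs f hp.pos s hε
    have hXs0 : XL M s = XE M s := XL_eq hs0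
    have hφ : XE M s' ⊆ XL M (max s s') := by
      rw [XL_eq (hs0.trans (le_max_left _ _))]
      exact XE_mono hs' (le_max_right _ _)
    have hc' : ContinuousOn R (XL M s) := hXs0 ▸ hc
    have hm' : MapsTo R (XL M s) (XL M (max s s')) := fun g hg => hφ (hm (hXs0 ▸ hg))
    have hU := umap_of hc' hm'
    have hI := isMap_liftR G hD hc' hm'
    have hA : Approx f ε s R := fun g hg u => hap g (hXs0 ▸ hg) u
    obtain ⟨e0, ex, ey⟩ := hXs s (max s s') R hU hs0 (hs0.trans (le_max_left _ _)) hA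
    have hr : ∀ x ∈ (S0 G hD).X s, liftR R ((S0 G hD).rot p x) = (S0 G hD).rot p (liftR R x) :=
      fun x hx => Prod.ext (hrot x.1 (hXs0 ▸ hx.1)) rfl
    refine ⟨max s s', le_max_left _ _, (R0 G hD).wop (ZMod p) hp h2 hI hr hf, ?_, fun i => ?_,
      fun i => ?_⟩
    · apply (Φ.φ s 0).injective
      refine (phi_pull G hD hU hI 0 _).trans ?_
      rw [Φ.φ_gh X]
      exact (congrArg _ (Φ.φ_gh X _ _)).trans e0
    · apply (Φ.φ s _).injective
      refine (phi_pull G hD hU hI _ _).trans ?_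
      rw [map_smul, Φ.φ_gh X]
      exact (congrArg _ (Φ.φ_gh X _ _)).trans (ex i)
    · apply (Φ.φ s _).injective
      refine (phi_pull G hD hU hI _ _).trans ?_
      rw [map_smul, Φ.φ_gh X]
      exact (congrArg _ (Φ.φ_gh X _ _)).trans (ey i)
  refine ⟨(T0 G hD (ZMod p) hp h2 hf).toPSysB hp.pos ha
    (Φ.rest_of_lift X ha h2' hn hB (K := K) hlift ?_ ?_ ?_ ?_) (Φ.births X hn hB)⟩
  · exact fun t ht htc => (hf t ht htc).2
  · exact fun t ht htc m T h hT => hK p hpp h2 t ht htc T h hT m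
  · exact fun s t h hs hc i => (S0 G hD).res_bijective hs h hc ((S0 G hD).mono s t h) i
  · exact fun s t h hs hsc htc h1 => rel G hD p h2 hf s t h hs hsc htc h1

end Vale.Agent.P216.B633
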