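import Vale.Agent.P216.B633.ToPSys
import Vale.Agent.P216.B64.Contract

set_option linter.unusedSectionVars false

/-!
# P216, Theorem B: from `XOut` (stable cohomology of the free loops, one field) to `PSysB`

`XIso M S` = the cohomology of the level-wise system `S` is the cohomology of the sublevels
`XL M t` (no symmetries), with restrictions and reversal.  Together with `XOut M n B k`,
`n = 0, 3 (mod 4)`, it gives lifts, ranks, gaps and births (`XIso.rest`, `XIso.births`).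
-/

open Module LinearMap Set

namespace Vale.Agent.P216.B633

open Vale.Agent.P216.AS (USeq)
open Vale.Agent.P216.T695
open Vale.Agent.P216.B64 GM L250
open Vale.Agent.P216.Tight923 (Inv)

theorem npk {k : Type*} [Field k] {a b : ℕ} (h : a % 2 = b % 2) : (-1 : k) ^ a = (-1) ^ b := by
  rw [neg_one_pow_eq_pow_mod_two, h, ← neg_one_pow_eq_pow_mod_two]

section Deg

variable {n : ℕ} (hn : 4 ≤ n)

include hn

theorem kk_pos (i : ℕ) : 1 ≤ kk n i := by unfold kk; split_ifs <;> omega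

theorem kk_strictMono : StrictMono (kk n) := by
  intro i j h
  unfold kk
  split_ifs <;> omega

theorem e_strictMono : StrictMono fun i => kk n i * (n - 1) := fun i j h =>
  Nat.mul_lt_mul_of_pos_right (kk_strictMono hn h) (by omega)

/-- parity of the degrees of the `x i` -/
theorem e_par (i : ℕ) : kk n i * (n - 1) % 2 = (n - 1) % 2 := by
  unfold kk
  split_ifs with h
  · rw [Nat.mul_mod, show (n - 1) % 2 = 0 by omega]
    simp
  · rw [Nat.mul_mod, show (2 * i + 1) % 2 = 1 by omega, one_mul, Nat.mod_mod]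

theorem deg_x {e : ℕ} (h : Deg n e) (hp : e % 2 = (n - 1) % 2) (h0 : e ≠ 0) :
    ∃ i, e = kk n i * (n - 1) := by
  rcases h with h | ⟨i, h | h⟩
  · exact absurd h h0
  · exact ⟨i, h⟩
  · exfalso
    have := e_par hn i
    omega

theorem deg_y {e : ℕ} (h : Deg n e) (hp : e % 2 ≠ (n - 1) % 2) (h0 : e ≠ 0) :
    ∃ i, e = kk n i * (n - 1) + 1 := by
  rcases h with h | ⟨i, h | h⟩
  · exact absurd h h0
  · exfalso
    have := e_par hn i
    omega
  · exact ⟨i, h⟩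

/-- the degree just below a class `x i` carries nothing -/
theorem gap_deg {e : ℕ} (he : 2 ≤ e) (hp : (e + 1) % 2 = (n - 1) % 2) (h : Deg n (e + 1)) :
    ¬ Deg n e := by
  intro h'
  obtain ⟨i, hi⟩ := deg_x hn h hp (by omega)
  obtain ⟨j, hj⟩ := deg_y hn h' (by omega) (by omega)
  have h1 : kk n j < kk n i := by
    by_contra h3
    have : kk n i * (n - 1) ≤ kk n j * (n - 1) := Nat.mul_le_mul_right _ (by omega)
    omega
  have h2 : (kk n j + 1) * (n - 1) ≤ kk n i * (n - 1) := Nat.mul_le_mul_right _ h1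
  rw [add_mul, one_mul] at h2
  omega

/-- sign of the reversal on `x i` -/
theorem sign_x (hn4 : n % 4 = 0 ∨ n % 4 = 3) (i : ℕ) :
    kk n i * (n - 1) / 2 % 2 = (i + 1) % 2 := by
  unfold kk
  rcases hn4 with h | h
  · obtain ⟨a, rfl⟩ : ∃ a, n = 4 * a + 4 := ⟨n / 4 - 1, by omega⟩
    rw [if_neg (by omega)]
    have : (2 * i + 1) * (4 * a + 4 - 1) = 2 * (4 * (i * a) + 3 * i + 2 * a + 1) + 1 := by
      rw [show 4 * a + 4 - 1 = 4 * a + 3 by omega]; ring
    omega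
  · obtain ⟨a, rfl⟩ : ∃ a, n = 4 * a + 3 := ⟨n / 4, by omega⟩
    rw [if_pos (by omega)]
    have : (i + 1) * (4 * a + 3 - 1) = 2 * (2 * ((i + 1) * a) + i + 1) := by
      rw [show 4 * a + 3 - 1 = 4 * a + 2 by omega]; ring
    omega

theorem sign_y (hn4 : n % 4 = 0 ∨ n % 4 = 3) (i : ℕ) :
    (kk n i * (n - 1) + 1 + 1) / 2 % 2 = i % 2 := by
  have := sign_x hn hn4 i
  omega

end Deg

/-- The cohomology of `S` is the cohomology of the sublevels of the free loop space. -/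
structure XIso (M : Type) [MetricSpace M] {k : Type} [Field k] {p : ℕ} {crit : Set ℝ}
    (S : TSys k p crit) where
  φ : ∀ t q, S.H t q ≃ₗ[k] HU k (XL M t) q
  nat : ∀ q s t (h : s ≤ t) (x : S.H t q),
    φ s q ((S.TH q).ρ s t h x) = hres k (XL_mono h) q (φ t q x)
  rev : ∀ t q (x : S.H t q), φ t q ((S.I t).rE q x) = hpull k (umap_rev t) q (φ t q x)

namespace XIso

variable {M : Type} [MetricSpace M] {n : ℕ} {B : ℝ} {k : Type} [Field k] {p : ℕ} {crit : Set ℝ}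
  {S : TSys k p crit} (Φ : XIso M S) (X : XOut M n B k)

include Φ X

/-- the generator of the global classes of degree `q` -/
noncomputable def gh (q : ℕ) : S.Hi q := ⟨fun t => (Φ.φ t q).symm (X.g q t), fun s t h => by
  apply (Φ.φ s q).injective
  rw [Φ.nat, LinearEquiv.apply_symm_apply, LinearEquiv.apply_symm_apply, X.res_g]
  exact h⟩

theorem φ_gh (t : ℝ) (q : ℕ) : Φ.φ t q (S.rH t q (Φ.gh X q)) = X.g q t :=
  (Φ.φ t q).apply_symm_apply _

theorem rH_gh_ne {t : ℝ} {q : ℕ} : S.rH t q (Φ.gh X q) ≠ 0 ↔ X.g q t ≠ 0 := by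
  rw [← Φ.φ_gh X, ne_eq, ne_eq, LinearEquiv.map_eq_zero_iff]

/-- stable images are in the line of the generator -/
theorem span' {t T : ℝ} (ht : 0 ≤ t) (hB : 0 < B) (h : t ≤ T) (hT : t + B ≤ T) {q : ℕ}
    (x : S.H T q) : ∃ c : k, (S.TH q).ρ t T h x = c • S.rH t q (Φ.gh X q) := by
  obtain ⟨c, hc⟩ := X.span q t ht (XL_mono (by linarith))
    (hres k (XL_mono hT) q (Φ.φ T q x))
  refine ⟨c, (Φ.φ t q).injective ?_⟩
  rw [Φ.nat, map_smul, φ_gh, ← hc]
  exact (AS.res_res _ _ _).symm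

theorem ρ_gh {s t : ℝ} (h : s ≤ t) (q : ℕ) :
    (S.TH q).ρ s t h (S.rH t q (Φ.gh X q)) = S.rH s q (Φ.gh X q) := (S.TH q).ρ_ev s t h _

/-- **every global class is a multiple of the generator** -/
theorem exists_smul (hB : 0 < B) (q : ℕ) (x : S.Hi q) : ∃ c : k, x = c • Φ.gh X q := by
  have h1 : ∀ t, 0 ≤ t → ∃ c : k, S.rH t q x = c • S.rH t q (Φ.gh X q) := by
    intro t ht
    obtain ⟨c, hc⟩ := Φ.span' X ht hB (T := t + B) (by linarith) le_rfl (S.rH (t + B) q x)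
    exact ⟨c, by rw [← hc, (S.TH q).ρ_ev]⟩
  by_cases hz : ∀ t, 0 ≤ t → S.rH t q (Φ.gh X q) = 0
  · refine ⟨0, (S.TH q).ext fun t => ?_⟩
    obtain ⟨c, hc⟩ := h1 (max t 0) (le_max_right _ _)
    rw [hz _ (le_max_right _ _), smul_zero] at hc
    change S.rH t q x = S.rH t q _
    rw [zero_smul, map_zero, ← (S.TH q).ρ_ev t (max t 0) (le_max_left _ _) x, hc, map_zero]
  · push Not at hz
    obtain ⟨t₀, ht₀, hne⟩ := hz
    obtain ⟨c, hc⟩ := h1 t₀ ht₀
    refine ⟨c, (S.TH q).ext fun t => ?_⟩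
    obtain ⟨c', hc'⟩ := h1 (max t t₀) (ht₀.trans (le_max_right _ _))
    have h2 : c' • S.rH t₀ q (Φ.gh X q) = c • S.rH t₀ q (Φ.gh X q) := by
      rw [← hc, ← (S.TH q).ρ_ev t₀ (max t t₀) (le_max_right _ _) x, hc', map_smul, ρ_gh]
    have h3 : c' = c := smul_left_injective k hne h2
    change S.rH t q x = S.rH t q (c • Φ.gh X q)
    rw [map_smul, ← (S.TH q).ρ_ev t (max t t₀) (le_max_left _ _) x, hc', h3, map_smul, ρ_gh]

theorem gh_zero {q : ℕ} (h : ¬ Deg n q) : Φ.gh X q = 0 := (S.TH q).ext fun t => by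
  apply (Φ.φ t q).injective
  change Φ.φ t q (S.rH t q (Φ.gh X q)) = Φ.φ t q ((S.TH q).ev t 0)
  rw [φ_gh, X.g_zero q t h, map_zero, map_zero]

/-- no global classes outside the degrees of `Deg` -/
theorem eq_zero (hB : 0 < B) {q : ℕ} (h : ¬ Deg n q) (x : S.Hi q) : x = 0 := by
  obtain ⟨c, rfl⟩ := Φ.exists_smul X hB q x
  rw [Φ.gh_zero X h, smul_zero]

variable {a : ℕ → ℝ} (ha : RegCof crit a)

theorem rE_gh {q : ℕ} {c : k} (h : ∀ t, hpull k (umap_rev t) q (X.g q t) = c • X.g q t) :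
    (S.Ii ha).rE q (Φ.gh X q) = c • Φ.gh X q := (S.TH q).ext fun t => by
  apply (Φ.φ t q).injective
  change Φ.φ t q ((S.I t).rE q (S.rH t q (Φ.gh X q))) = Φ.φ t q (S.rH t q (c • Φ.gh X q))
  rw [Φ.rev, φ_gh, h, map_smul, map_smul, φ_gh]

theorem rE_eq (hB : 0 < B) {q : ℕ} {c : k}
    (h : ∀ t, hpull k (umap_rev t) q (X.g q t) = c • X.g q t) (x : S.Hi q) :
    (S.Ii ha).rE q x = c • x := by
  obtain ⟨d, rfl⟩ := Φ.exists_smul X hB q x
  rw [map_smul, Φ.rE_gh X ha h, smul_comm]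

theorem sign_q (hn : 4 ≤ n) (hn4 : n % 4 = 0 ∨ n % 4 = 3) (hB : 0 < B) (e : ℕ)
    (he : e % 2 = (n - 1) % 2) (x : S.Hi e) : (S.Ii ha).rE e x = (-1 : k) ^ (e / 2) • x := by
  by_cases h : Deg n e
  · by_cases h0 : e = 0
    · subst h0
      refine Φ.rE_eq X ha hB (fun t => ?_) x
      simpa using X.rev_zero t
    · obtain ⟨i, rfl⟩ := deg_x hn h he h0
      refine Φ.rE_eq X ha hB (fun t => ?_) x
      rw [X.rev_x, npk (sign_x hn hn4 i)]
  · rw [Φ.eq_zero X hB h x, map_zero, smul_zero]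

theorem sign_r (hn : 4 ≤ n) (hn4 : n % 4 = 0 ∨ n % 4 = 3) (hB : 0 < B) (e : ℕ)
    (he : e % 2 ≠ (n - 1) % 2) (x : S.Hi e) :
    (S.Ii ha).rE e x = (-1 : k) ^ ((e + 1) / 2) • x := by
  by_cases h : Deg n e
  · by_cases h0 : e = 0
    · subst h0
      refine Φ.rE_eq X ha hB (fun t => ?_) x
      simpa using X.rev_zero t
    · obtain ⟨i, rfl⟩ := deg_y hn h he h0
      refine Φ.rE_eq X ha hB (fun t => ?_) x
      rw [X.rev_y, npk (sign_y hn hn4 i)]
  · rw [Φ.eq_zero X hB h x, map_zero, smul_zero]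

include ha in
/-- **lifts** -/
theorem lift (h2 : (2 : k) ≠ 0) (hn : 4 ≤ n) (hn4 : n % 4 = 0 ∨ n % 4 = 3) (hB : 0 < B) (e : ℕ)
    (he : e % 2 = (n - 1) % 2) : Function.Surjective (S.πi e) :=
  S.lift_of_type ha h2 (S.revOp ha) ((n - 1) % 2) (Nat.mod_lt _ (by norm_num))
    (Φ.sign_q X ha hn hn4 hB) (Φ.sign_r X ha hn hn4 hB) e he

theorem range_le (hB : 0 < B) (t : ℝ) (q : ℕ) :
    LinearMap.range (S.rH t q) ≤ Submodule.span k {S.rH t q (Φ.gh X q)} := by
  rintro _ ⟨x, rfl⟩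
  obtain ⟨c, rfl⟩ := Φ.exists_smul X hB q x
  rw [map_smul]
  exact Submodule.smul_mem _ _ (Submodule.mem_span_singleton_self _)

theorem rk (hB : 0 < B) (t : ℝ) (q : ℕ) : finrank k (LinearMap.range (S.rH t q)) ≤ 1 :=
  (Submodule.finrank_mono (Φ.range_le X hB t q)).trans
    ((finrank_span_le_card _).trans (by simp))

theorem rH_ne_iff (hB : 0 < B) (t : ℝ) (q : ℕ) : S.rH t q ≠ 0 ↔ X.g q t ≠ 0 := by
  rw [← Φ.rH_gh_ne X]
  constructor
  · intro h h0
    apply h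
    ext x
    obtain ⟨c, rfl⟩ := Φ.exists_smul X hB q x
    rw [map_smul, h0, smul_zero, LinearMap.zero_apply]
  · intro h h0
    apply h
    rw [h0, LinearMap.zero_apply]

theorem gap (hn : 4 ≤ n) (hB : 0 < B) (e : ℕ) (he : 2 ≤ e) (hp : (e + 1) % 2 = (n - 1) % 2)
    (t : ℝ) (h : S.rH t (e + 1) ≠ 0) : S.rH t e = 0 := by
  by_contra h'
  have h1 := (Φ.rH_ne_iff X hB t (e + 1)).1 h
  have h3 := (Φ.rH_ne_iff X hB t e).1 h'
  exact gap_deg hn he hp (by_contra fun h4 => h1 (X.g_zero _ t h4))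
    (by_contra fun h4 => h3 (X.g_zero _ t h4))

/-- **births** -/
theorem births (hn : 4 ≤ n) (hB : 0 < B) :
    S.Births (fun i => kk n i * (n - 1)) ((n - 1) % 2) B B where
  e_mono := e_strictMono hn
  e_par := e_par hn
  birth0 t ht _ := (Φ.rH_ne_iff X hB t _).2 (X.birth0 t ht)
  birth i s t hs _ _ hst h := by
    have h1 := X.birth i s hs.le ((Φ.rH_ne_iff X hB s _).1 h)
    refine (Φ.rH_ne_iff X hB t _).2 fun h0 => h1 ?_
    rw [← X.res_g _ _ _ hst, h0, map_zero]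

/-- **stable images** -/
theorem stable (hB : 0 < B) {s t : ℝ} (hs : 0 ≤ s) (h : s ≤ s + B) (ht : s ≤ t) (q : ℕ) :
    LinearMap.range ((S.TH q).ρ s (s + B) h) ≤ LinearMap.range ((S.TH q).ρ s t ht) := by
  rintro _ ⟨x, rfl⟩
  obtain ⟨c, hc⟩ := Φ.span' X hs hB h le_rfl x
  exact ⟨c • S.rH t q (Φ.gh X q), by rw [hc, map_smul, ρ_gh]⟩

include ha in
/-- the global classes at the level `s` are the stable images -/
theorem range_rH_eq (hB : 0 < B) {s T : ℝ} (hs : 0 ≤ s) (h : s ≤ T) (hT : s + B ≤ T) (q : ℕ) :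
    LinearMap.range (S.rH s q) = LinearMap.range ((S.TH q).ρ s T h) := by
  refine S.range_rH_eq ha h q fun t _ hst => ?_
  refine le_trans ?_ (Φ.stable X hB hs (by linarith) hst q)
  rintro _ ⟨x, rfl⟩
  refine ⟨(S.TH q).ρ (s + B) T hT x, ?_⟩
  exact (S.TH q).ρ_ρ _ _ _ _ _ _

include ha in
/-- **the remaining fields of `PSysB`** -/
theorem rest (h2 : (2 : k) ≠ 0) (hn : 4 ≤ n) (hn4 : n % 4 = 0 ∨ n % 4 = 3) (hB : 0 < B) {K : ℕ}
    (topH : ∀ t, 0 < t → t ∉ crit → ∃ N, ∀ i ≥ N, Subsingleton (S.H t i))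
    (bars : ∀ t, 0 < t → t ∉ crit → ∀ m, ∀ T (h : t ≤ T), t + B ≤ T →
      ∑ i ∈ Finset.range m, (finrank k (S.H t i) -
        finrank k (LinearMap.range ((S.TH i).ρ t T h))) ≤ K)
    (reg : ∀ s t (h : s ≤ t), 0 < s → (∀ x ∈ Set.Icc s t, x ∉ crit) →
      ∀ i, Function.Bijective ((S.TH i).ρ s t h))
    (rel : ∀ s t (h : s ≤ t), 0 < s → s ∉ crit → t ∉ crit → (crit ∩ Set.Ioo s t).Subsingleton →
      Nonempty (RelSeq k (S.F t) (S.F s) (fun i => (S.TF i).ρ s t h) (S.I t).rF (S.I s).rF)) :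
    S.Rest ((n - 1) % 2) K B B where
  two_ne := h2
  q_lt := Nat.mod_lt _ (by norm_num)
  lift e he := Φ.lift X ha h2 hn hn4 hB e he
  topH := topH
  bars t h0 ht m := by
    refine le_trans (le_of_eq (Finset.sum_congr rfl fun i _ => ?_))
      (bars t h0 ht m (t + B) (by linarith) le_rfl)
    rw [Φ.range_rH_eq X ha hB h0.le (by linarith) le_rfl i]
  reg := reg
  rel := rel
  rk e _ t _ _ := Φ.rk X hB t e
  gap e he hp t _ _ h := Φ.gap X hn hB e he hp t h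

end XIso

end Vale.Agent.P216.B633
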