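import Vale.Agent.P216.B633.Adapt

set_option linter.unusedSectionVars false

/-!
# P216, Theorem B: lifts in the dimensions `n = 2 (mod 4)` too

The reversal has the signs `- type` in positive degrees; only the class `1` of degree `0` has to
be excluded, which is done at one low level where the cohomology is in even degrees.
-/

open Module LinearMap Set

namespace Vale.Agent.P216.B633

open Vale.Agent.P216.AS (USeq)
open Vale.Agent.P216.T695
open Vale.Agent.P216.B64 GM L250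
open Vale.Agent.P216.Tight923 (Inv)

section Gen

variable {k : Type*} [Field k] {F H : ℕ → Type*}
  [∀ n, AddCommGroup (F n)] [∀ n, Module k (F n)]
  [∀ n, AddCommGroup (H n)] [∀ n, Module k (H n)]

/-- the vanishing theorem, degree `0` treated separately -/
theorem eq_zero_of_signs' {G : USeq k F H} (h2 : (2 : k) ≠ 0) {α δ : k}
    (O : Op G α δ) (n : ℕ) (z : F n) (s : k) (hs : s * s = 1)
    (hA : O.A n z = s • z) (h0 : ∀ m, n = 2 * m → z ∈ Dv G.u m n → z = 0)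
    (hne : ∀ m e, e ≠ 0 → e + 2 * m = n → ∀ h : H e, O.B e h = (s * α ^ m) • h → h = 0) :
    z = 0 := by
  have key : ∀ m, z ∈ Dv G.u m n := by
    intro m
    induction m with
    | zero => exact Submodule.mem_top
    | succ m ih =>
      rcases lt_trichotomy n (2 * m) with h | h | h
      · have h1 := ih
        rw [Dv_eq_bot _ _ _ h] at h1
        have : z = 0 := h1
        rw [this]; exact Submodule.zero_mem _
      · rw [h0 m h ih]; exact Submodule.zero_mem _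
      · refine O.step h2 m n ih hs hA ?_
        intro e he
        exact hne m e (by omega) he
  have h1 := key (n + 1)
  rw [Dv_eq_bot _ _ _ (by omega)] at h1
  exact h1

theorem surjective_of_signs' {G : USeq k F H} (h2 : (2 : k) ≠ 0) {α δ : k}
    (O : Op G α δ) (σ : ℕ → k) (hσ : ∀ e, σ e * σ e = 1)
    (hB : ∀ e (x : H e), O.B e x = σ e • x) (n : ℕ)
    (h0 : ∀ m, n = 2 * m → ∀ z : F n, z ∈ Dv G.u m n → G.u n z = 0 → z = 0)
    (hne : ∀ m e, e ≠ 0 → e + 2 * m = n → σ e ≠ δ * σ (n + 1) * α ^ m) :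
    Function.Surjective (G.π (n + 1)) := by
  intro x
  apply (G.ex1 n x).1
  refine eq_zero_of_signs' h2 O n (G.d n x) (δ * σ (n + 1)) ?_ ?_ ?_ ?_
  · rw [mul_mul_mul_comm, O.hδ, hσ, one_mul]
  · rw [O.hd, hB, map_smul, smul_smul]
  · intro m hm hz
    exact h0 m hm _ hz ((G.ex2 n _).2 ⟨x, rfl⟩)
  · intro m e he0 he h hh
    rw [hB, ← sub_eq_zero, ← sub_smul, smul_eq_zero, sub_eq_zero] at hh
    exact hh.resolve_left (hne m e he0 he)

end Gen

namespace TSys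

variable {k : Type} [Field k] {p : ℕ} {crit : Set ℝ} (S : TSys k p crit)
  {a : ℕ → ℝ} (ha : RegCof crit a)

/-- no class `u ^ m z`, `z` of degree `0`, is killed by `u`: seen at one level with cohomology in
even degrees -/
theorem dv_low {t : ℝ} (hodd : ∀ e, e % 2 = 1 → Subsingleton (S.H t e))
    (h0 : ∀ x : S.Hi 0, S.rH t 0 x = 0 → x = 0) (n m : ℕ) (hn : n = 2 * m) (z : S.Fi n)
    (hz : z ∈ Dv (S.Gi ha).u m n) (hu : (S.Gi ha).u n z = 0) : z = 0 := by
  have hinj : ∀ e, e % 2 = 0 → ∀ w : S.F t e, (S.G t).u e w = 0 → w = 0 := by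
    intro e he w hw
    obtain ⟨v, rfl⟩ := ((S.G t).ex2 e w).1 hw
    have := hodd (e + 1) (by omega)
    rw [Subsingleton.elim v 0, map_zero]
  have key : ∀ m n, n = 2 * m → ∀ z : S.Fi n, z ∈ Dv (S.Gi ha).u m n → S.rF t n z = 0 →
      z = 0 := by
    intro m
    induction m with
    | zero =>
      rintro n rfl z _ hz0
      have h1 : S.πi 0 z = 0 := h0 _ (by rw [rH_πi, hz0, map_zero])
      exact (S.Gi ha).inj0 (h1.trans (map_zero (S.πi 0)).symm)
    | succ m ih =>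
      rintro n hn z hz hz0
      obtain rfl : n = 2 * m + 2 := by omega
      obtain ⟨w, hw, rfl⟩ := hz
      have h1 : S.rF t (2 * m) w = 0 := hinj _ (by omega) _ (by
        rw [← rF_ui]; exact hz0)
      rw [ih _ rfl w hw h1, map_zero]
  refine key m n hn z hz (hinj n (by omega) _ ?_)
  rw [← rF_ui]
  change S.rF t (n + 2) ((S.Gi ha).u n z) = 0
  rw [hu, map_zero]

/-- **lifts from one operator**, up to a global sign `c` in positive degrees -/
theorem lift_of_type' (h2 : (2 : k) ≠ 0) (O : Op (S.Gi ha) (-1) (-1)) (q : ℕ) (hq : q < 2)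
    {c : k} (hc : c * c = 1) {c₀ : k} (hc₀ : c₀ * c₀ = 1)
    (hx : ∀ n, n ≠ 0 → n % 2 = q → ∀ x : S.Hi n, O.B n x = (c * (-1 : k) ^ (n / 2)) • x)
    (hy : ∀ n, n ≠ 0 → n % 2 ≠ q → ∀ x : S.Hi n, O.B n x = (c * (-1 : k) ^ ((n + 1) / 2)) • x)
    (hz : ∀ x : S.Hi 0, O.B 0 x = c₀ • x)
    {t : ℝ} (hodd : ∀ e, e % 2 = 1 → Subsingleton (S.H t e))
    (h0 : ∀ x : S.Hi 0, S.rH t 0 x = 0 → x = 0)
    (n : ℕ) (hn : n % 2 = q) : Function.Surjective (S.πi n) := by
  rcases n with _ | n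
  · exact (S.Gi ha).surj0
  have hsq : ∀ l : ℕ, (-1 : k) ^ l * (-1 : k) ^ l = 1 := fun l => by rw [← mul_pow]; simp
  have hne : ∀ l : ℕ, c * (-1 : k) ^ l ≠ -(c * (-1 : k) ^ l) := fun l h => h2 (by
    have h1 : (2 : k) * (c * (-1 : k) ^ l) = 0 := by linear_combination h
    have h4 : (c * (-1 : k) ^ l) * (c * (-1 : k) ^ l) = 1 := by
      rw [mul_mul_mul_comm, hc, hsq, one_mul]
    have h3 : (2 : k) = (2 * (c * (-1) ^ l)) * (c * (-1 : k) ^ l) := by
      rw [mul_assoc, h4, mul_one]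
    rw [h3, h1, zero_mul])
  refine surjective_of_signs' h2 O
    (fun e => if e = 0 then c₀ else if e % 2 = q then c * (-1 : k) ^ (e / 2) else
      c * (-1 : k) ^ ((e + 1) / 2)) (fun e => ?_) (fun e x => ?_) n
      (fun m hm z hz hu => S.dv_low ha hodd h0 n m hm z hz hu) (fun m e he0 he => ?_)
  · split_ifs
    · exact hc₀
    · rw [mul_mul_mul_comm, hc, hsq, one_mul]
    · rw [mul_mul_mul_comm, hc, hsq, one_mul]
  · split_ifs with h h'
    · subst h; exact hz x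
    · exact hx e h h' x
    · exact hy e h h' x
  · rw [if_neg he0, if_neg (by omega), if_neg (by omega), if_pos hn]
    have h1 : (n + 1) / 2 = (e + 1) / 2 + m := by omega
    rw [h1, pow_add]
    have h3 : -1 * (c * ((-1 : k) ^ ((e + 1) / 2) * (-1) ^ m)) * (-1) ^ m =
        -(c * (-1 : k) ^ ((e + 1) / 2)) := by
      linear_combination (-(c * (-1 : k) ^ ((e + 1) / 2))) * hsq m
    rw [h3]
    exact hne _

end TSys

/-! ### `n = 2 (mod 4)` -/

theorem sign_x2 {n : ℕ} (hn : 4 ≤ n) (hn4 : n % 4 = 2) (i : ℕ) :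
    kk n i * (n - 1) / 2 % 2 = i % 2 := by
  unfold kk
  obtain ⟨a, rfl⟩ : ∃ a, n = 4 * a + 6 := ⟨n / 4 - 1, by omega⟩
  rw [if_neg (by omega)]
  have : (2 * i + 1) * (4 * a + 6 - 1) = 2 * (4 * (i * a) + 5 * i + 2 * a + 2) + 1 := by
    rw [show 4 * a + 6 - 1 = 4 * a + 5 by omega]; ring
  omega

theorem sign_y2 {n : ℕ} (hn : 4 ≤ n) (hn4 : n % 4 = 2) (i : ℕ) :
    (kk n i * (n - 1) + 1 + 1) / 2 % 2 = (i + 1) % 2 := by
  have := sign_x2 hn hn4 i
  omega

/-- the constant `1` does not vanish -/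
theorem g0_ne {M : Type} [MetricSpace M] {n : ℕ} {B : ℝ} {k : Type} [Field k]
    (X : XOut M n B k) (hB : 0 < B) {t : ℝ} (ht : 0 ≤ t) (hne : (XL M t).Nonempty) :
    X.g 0 t ≠ 0 := by
  intro h0
  obtain ⟨c, hc⟩ := X.span 0 t ht (XL_mono (by linarith)) (hone k (XL M (t + B)))
  rw [h0, smul_zero] at hc
  have h1 : (hone k (XL M t) : HU k (XL M t) 0) = 0 := hc
  rw [hone, AS.H.mk_eq_zero, AS.mem_Bc_zero] at h1
  obtain ⟨-, ε, hε, h⟩ := h1
  obtain ⟨x, hx⟩ := hne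
  exact one_ne_zero (h (fun _ => x) ⟨fun _ => hx, fun i j => by simpa using hε⟩)

namespace XIso

variable {M : Type} [MetricSpace M] {n : ℕ} {B : ℝ} {k : Type} [Field k] {p : ℕ} {crit : Set ℝ}
  {S : TSys k p crit} (Φ : XIso M S) (X : XOut M n B k)
  {a : ℕ → ℝ} (ha : RegCof crit a)

include Φ X

theorem sign_q2 (hn : 4 ≤ n) (hn4 : n % 4 = 2) (hB : 0 < B) (e : ℕ) (h0 : e ≠ 0)
    (he : e % 2 = (n - 1) % 2) (x : S.Hi e) :
    (S.Ii ha).rE e x = (-1 * (-1 : k) ^ (e / 2)) • x := by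
  by_cases h : Deg n e
  · obtain ⟨i, rfl⟩ := deg_x hn h he h0
    refine Φ.rE_eq X ha hB (fun t => ?_) x
    rw [X.rev_x, npk (sign_x2 hn hn4 i), pow_succ]
    congr 1
    ring
  · rw [Φ.eq_zero X hB h x, map_zero, smul_zero]

theorem sign_r2 (hn : 4 ≤ n) (hn4 : n % 4 = 2) (hB : 0 < B) (e : ℕ) (h0 : e ≠ 0)
    (he : e % 2 ≠ (n - 1) % 2) (x : S.Hi e) :
    (S.Ii ha).rE e x = (-1 * (-1 : k) ^ ((e + 1) / 2)) • x := by
  by_cases h : Deg n e
  · obtain ⟨i, rfl⟩ := deg_y hn h he h0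
    refine Φ.rE_eq X ha hB (fun t => ?_) x
    rw [X.rev_y, npk (sign_y2 hn hn4 i), pow_succ]
    congr 1
    ring
  · rw [Φ.eq_zero X hB h x, map_zero, smul_zero]

/-- a global class of degree `0` is seen at the levels where the constant `1` is not `0` -/
theorem inj0 (hB : 0 < B) {t : ℝ} (hg : X.g 0 t ≠ 0) (x : S.Hi 0) (hx : S.rH t 0 x = 0) :
    x = 0 := by
  obtain ⟨c, rfl⟩ := Φ.exists_smul X hB 0 x
  rw [map_smul, smul_eq_zero] at hx
  rcases hx with h | h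
  · rw [h, zero_smul]
  · exact absurd h ((Φ.rH_gh_ne X).2 hg)

include ha in
/-- **lifts for `n = 2 (mod 4)`** -/
theorem lift2 (h2 : (2 : k) ≠ 0) (hn : 4 ≤ n) (hn4 : n % 4 = 2) (hB : 0 < B)
    {t : ℝ} (hodd : ∀ e, e % 2 = 1 → Subsingleton (S.H t e)) (hg : X.g 0 t ≠ 0)
    (e : ℕ) (he : e % 2 = (n - 1) % 2) : Function.Surjective (S.πi e) := by
  refine S.lift_of_type' ha h2 (S.revOp ha) ((n - 1) % 2) (Nat.mod_lt _ (by norm_num))
    (c := -1) (by ring) (c₀ := 1) (by ring)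
    (fun e h0 he x => Φ.sign_q2 X ha hn hn4 hB e h0 he x)
    (fun e h0 he x => Φ.sign_r2 X ha hn hn4 hB e h0 he x) (fun x => ?_) hodd
    (Φ.inj0 X hB hg) e he
  exact Φ.rE_eq X ha hB (fun t => by simpa using X.rev_zero t) x

include ha in
/-- **the remaining fields of `PSysB`**, from lifts -/
theorem rest_of_lift (h2 : (2 : k) ≠ 0) (hn : 4 ≤ n) (hB : 0 < B) {K : ℕ}
    (lift : ∀ e, e % 2 = (n - 1) % 2 → Function.Surjective (S.πi e))
    (topH : ∀ t, 0 < t → t ∉ crit → ∃ N, ∀ i ≥ N, Subsingleton (S.H t i))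
    (bars : ∀ t, 0 < t → t ∉ crit → ∀ m, ∀ T (h : t ≤ T), t + B ≤ T →
      ∑ i ∈ Finset.range m, (finrank k (S.H t i) -
        finrank k (LinearMap.range ((S.TH i).ρ t T h))) ≤ K)
    (reg : ∀ s t (h : s ≤ t), 0 < s → (∀ x ∈ Set.Icc s t, x ∉ crit) →
      ∀ i, Function.Bijective ((S.TH i).ρ s t h))
    (rel : ∀ s t (h : s ≤ t), 0 < s → s ∉ crit → t ∉ crit → (crit ∩ Set.Ioo s t).Subsingleton →
      Nonempty (RelSeq k (S.F t) (S.F s) (fun i => (S.TF i).ρ s t h) (S.I t).rF (S.I s).rF)) :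
    S.Rest ((n - 1) % 2) K B B where
  two_ne := h2
  q_lt := Nat.mod_lt _ (by norm_num)
  lift := lift
  topH := topH
  bars t h0 ht m := by
    refine le_trans (le_of_eq (Finset.sum_congr rfl fun i _ => ?_))
      (bars t h0 ht m (t + B) (by linarith) le_rfl)
    rw [Φ.range_rH_eq X ha hB h0.le (by linarith) le_rfl i]
  reg := reg
  rel := rel
  rk e _ t _ _ := Φ.rk X hB t e
  gap e he hp t _ _ h := Φ.gap X hn hB e he hp t h

include ha in
/-- **the remaining fields of `PSysB` for `n ≠ 1 (mod 4)`**: `t` is a low level -/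
theorem rest' (h2 : (2 : k) ≠ 0) (hn : 4 ≤ n) (hn4 : n % 4 ≠ 1) (hB : 0 < B)
    {t₀ : ℝ} (hodd : n % 2 = 0 → ∀ e, e % 2 = 1 → Subsingleton (S.H t₀ e))
    (hg : X.g 0 t₀ ≠ 0) {K : ℕ}
    (topH : ∀ t, 0 < t → t ∉ crit → ∃ N, ∀ i ≥ N, Subsingleton (S.H t i))
    (bars : ∀ t, 0 < t → t ∉ crit → ∀ m, ∀ T (h : t ≤ T), t + B ≤ T →
      ∑ i ∈ Finset.range m, (finrank k (S.H t i) -
        finrank k (LinearMap.range ((S.TH i).ρ t T h))) ≤ K)
    (reg : ∀ s t (h : s ≤ t), 0 < s → (∀ x ∈ Set.Icc s t, x ∉ crit) →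
      ∀ i, Function.Bijective ((S.TH i).ρ s t h))
    (rel : ∀ s t (h : s ≤ t), 0 < s → s ∉ crit → t ∉ crit → (crit ∩ Set.Ioo s t).Subsingleton →
      Nonempty (RelSeq k (S.F t) (S.F s) (fun i => (S.TF i).ρ s t h) (S.I t).rF (S.I s).rF)) :
    S.Rest ((n - 1) % 2) K B B := by
  refine Φ.rest_of_lift X ha h2 hn hB (fun e he => ?_) topH bars reg rel
  by_cases h : n % 4 = 2
  · exact Φ.lift2 X ha h2 hn h hB (hodd (by omega)) hg e he
  · exact Φ.lift X ha h2 hn (by omega) hB e he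

end XIso

end Vale.Agent.P216.B633
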