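import Vale.Agent.P216.B633.Adapt2
import Vale.Agent.P216.B64.GoalsC

set_option linter.unusedSectionVars false

/-!
# P216-C: from `XGenC` to `PSysC`

`TSys.RestC` = the remaining fields of `PSysC` (rank and gap only in the degrees `e i`),
`TSys.toPSysC` = the assembly; `XIso.restC`, `XIso.birthsC` = all these fields for
`X : XGenC M q e s B k` and an identification `Φ : XIso M S` of the cohomology of the system `S`.
-/

open Module LinearMap Set

namespace Vale.Agent.P216.B633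

open Vale.Agent.P216.AS (USeq)
open Vale.Agent.P216.T695
open Vale.Agent.P216.B64 GM L250
open Vale.Agent.P216.Tight923 (Inv)

namespace TSys

variable {k : Type} [Field k] {p : ℕ} {crit : Set ℝ} (S : TSys k p crit)

/-- the remaining fields of `PSysC` -/
structure RestC (e : ℕ → ℕ) (q K : ℕ) : Prop where
  two_ne : (2 : k) ≠ 0
  q_lt : q < 2
  lift : ∀ n, n % 2 = q → Function.Surjective (S.πi n)
  topH : ∀ t, 0 < t → t ∉ crit → ∃ N, ∀ n ≥ N, Subsingleton (S.H t n)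
  /-- bounded finite bars (all parities) -/
  bars : ∀ t, 0 < t → t ∉ crit → ∀ m,
    ∑ n ∈ Finset.range m, (finrank k (S.H t n) - finrank k (LinearMap.range (S.rH t n))) ≤ K
  /-- no critical level between `s` and `t`: the restriction is bijective -/
  reg : ∀ s t (h : s ≤ t), 0 < s → (∀ x ∈ Set.Icc s t, x ∉ crit) →
    ∀ n, Function.Bijective ((S.TH n).ρ s t h)
  /-- at most one critical level between `s` and `t` -/
  rel : ∀ s t (h : s ≤ t), 0 < s → s ∉ crit → t ∉ crit → (crit ∩ Set.Ioo s t).Subsingleton →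
    Nonempty (RelSeq k (S.F t) (S.F s) (fun n => (S.TF n).ρ s t h) (S.I t).rF (S.I s).rF)
  e_ge : ∀ i, 3 ≤ e i
  /-- the global classes of the degrees `e i` form lines -/
  rk : ∀ i, ∀ t, 0 < t → t ∉ crit → finrank k (LinearMap.range (S.rH t (e i))) ≤ 1
  /-- no global class in the degree just below `e i` -/
  gap : ∀ i, ∀ t, 0 < t → t ∉ crit → S.rH t (e i) ≠ 0 → S.rH t (e i - 1) = 0

/-- **the assembly** -/
def toPSysC (hp : 0 < p) {a : ℕ → ℝ} (ha : RegCof crit a) {q K : ℕ} {B0 B1 : ℝ} {e : ℕ → ℕ}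
    (R : S.RestC e q K) (E : S.Births e q B0 B1) : PSysC k p crit K B0 B1 where
  two_ne := R.two_ne
  q := q
  q_lt := R.q_lt
  H := S.H
  F := S.F
  Hi := S.Hi
  Fi := S.Fi
  G := S.G
  I := S.I
  L := S.L
  ui := S.ui
  πi := S.πi
  rH := S.rH
  rF := S.rF
  rF_u _ _ _ := rfl
  π_rF _ _ _ := rfl
  glob t h0 h e j x := S.glob ha hp t h0 h e j x
  lift := R.lift
  finH := S.finH
  topH := R.topH
  bars := R.bars
  ρH s t h n := (S.TH n).ρ s t h
  ρF s t h n := (S.TF n).ρ s t h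
  ρH_rH s t h n x := (S.TH n).ρ_ev s t h x
  ρF_rF s t h n x := (S.TF n).ρ_ev s t h x
  ρF_u s t h n x := (S.ρ_u n s t h x).symm
  ρF_r s t h n x := (S.ρ_rF n s t h x).symm
  ℓ_ρ := S.ℓ_ρ
  reg := R.reg
  rel := R.rel
  e := e
  e_mono := E.e_mono
  e_par := E.e_par
  e_ge := R.e_ge
  rk := R.rk
  gap := R.gap
  birth0 := E.birth0
  birth := E.birth

end TSys

/-- the constant `1` does not vanish -/
theorem g0_neC {M : Type} [MetricSpace M] {q : ℕ} {e : ℕ → ℕ} {s : ℤ} {B : ℝ} {k : Type} [Field k]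
    (X : XGenC M q e s B k) (hB : 0 < B) {t : ℝ} (ht : 0 ≤ t) (hne : (XL M t).Nonempty) :
    X.g 0 t ≠ 0 := by
  intro h0
  obtain ⟨c, hc⟩ := X.span 0 t ht (XL_mono (by linarith)) (hone k (XL M (t + B)))
  rw [h0, smul_zero] at hc
  have h1 : (hone k (XL M t) : HU k (XL M t) 0) = 0 := hc
  rw [hone, AS.H.mk_eq_zero, AS.mem_Bc_zero] at h1
  obtain ⟨-, ε, hε, h⟩ := h1
  obtain ⟨x, hx⟩ := hne
  exact one_ne_zero (h (fun _ => x) ⟨fun _ => hx, fun i j => by simpa using hε⟩)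

namespace XIso

variable {M : Type} [MetricSpace M] {q : ℕ} {e : ℕ → ℕ} {s : ℤ} {B : ℝ} {k : Type} [Field k]
  {p : ℕ} {crit : Set ℝ} {S : TSys k p crit} (Φ : XIso M S) (X : XGenC M q e s B k)

include Φ X

/-- the generator of the global classes of degree `i` -/
noncomputable def gc (i : ℕ) : S.Hi i := ⟨fun t => (Φ.φ t i).symm (X.g i t), fun s t h => by
  apply (Φ.φ s i).injective
  rw [Φ.nat, LinearEquiv.apply_symm_apply, LinearEquiv.apply_symm_apply, X.res_g]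
  exact h⟩

theorem φ_gc (t : ℝ) (i : ℕ) : Φ.φ t i (S.rH t i (Φ.gc X i)) = X.g i t :=
  (Φ.φ t i).apply_symm_apply _

theorem rH_gc_ne {t : ℝ} {i : ℕ} : S.rH t i (Φ.gc X i) ≠ 0 ↔ X.g i t ≠ 0 := by
  rw [← Φ.φ_gc X, ne_eq, ne_eq, LinearEquiv.map_eq_zero_iff]

/-- stable images are in the line of the generator -/
theorem spanC {t T : ℝ} (ht : 0 ≤ t) (hB : 0 < B) (h : t ≤ T) (hT : t + B ≤ T) {i : ℕ}
    (x : S.H T i) : ∃ c : k, (S.TH i).ρ t T h x = c • S.rH t i (Φ.gc X i) := by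
  obtain ⟨c, hc⟩ := X.span i t ht (XL_mono (by linarith))
    (hres k (XL_mono hT) i (Φ.φ T i x))
  refine ⟨c, (Φ.φ t i).injective ?_⟩
  rw [Φ.nat, map_smul, φ_gc, ← hc]
  exact (AS.res_res _ _ _).symm

theorem ρ_gc {s t : ℝ} (h : s ≤ t) (i : ℕ) :
    (S.TH i).ρ s t h (S.rH t i (Φ.gc X i)) = S.rH s i (Φ.gc X i) := (S.TH i).ρ_ev s t h _

/-- **every global class is a multiple of the generator** -/
theorem exists_smulC (hB : 0 < B) (i : ℕ) (x : S.Hi i) : ∃ c : k, x = c • Φ.gc X i := by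
  have h1 : ∀ t, 0 ≤ t → ∃ c : k, S.rH t i x = c • S.rH t i (Φ.gc X i) := by
    intro t ht
    obtain ⟨c, hc⟩ := Φ.spanC X ht hB (T := t + B) (by linarith) le_rfl (S.rH (t + B) i x)
    exact ⟨c, by rw [← hc, (S.TH i).ρ_ev]⟩
  by_cases hz : ∀ t, 0 ≤ t → S.rH t i (Φ.gc X i) = 0
  · refine ⟨0, (S.TH i).ext fun t => ?_⟩
    obtain ⟨c, hc⟩ := h1 (max t 0) (le_max_right _ _)
    rw [hz _ (le_max_right _ _), smul_zero] at hc
    change S.rH t i x = S.rH t i _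
    rw [zero_smul, map_zero, ← (S.TH i).ρ_ev t (max t 0) (le_max_left _ _) x, hc, map_zero]
  · push Not at hz
    obtain ⟨t₀, ht₀, hne⟩ := hz
    obtain ⟨c, hc⟩ := h1 t₀ ht₀
    refine ⟨c, (S.TH i).ext fun t => ?_⟩
    obtain ⟨c', hc'⟩ := h1 (max t t₀) (ht₀.trans (le_max_right _ _))
    have h2 : c' • S.rH t₀ i (Φ.gc X i) = c • S.rH t₀ i (Φ.gc X i) := by
      rw [← hc, ← (S.TH i).ρ_ev t₀ (max t t₀) (le_max_right _ _) x, hc', map_smul, ρ_gc]
    have h3 : c' = c := smul_left_injective k hne h2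
    change S.rH t i x = S.rH t i (c • Φ.gc X i)
    rw [map_smul, ← (S.TH i).ρ_ev t (max t t₀) (le_max_left _ _) x, hc', h3, map_smul, ρ_gc]

variable {a : ℕ → ℝ} (ha : RegCof crit a)

theorem rE_gc {i : ℕ} {c : k} (h : ∀ t, hpull k (umap_rev t) i (X.g i t) = c • X.g i t) :
    (S.Ii ha).rE i (Φ.gc X i) = c • Φ.gc X i := (S.TH i).ext fun t => by
  apply (Φ.φ t i).injective
  change Φ.φ t i ((S.I t).rE i (S.rH t i (Φ.gc X i))) = Φ.φ t i (S.rH t i (c • Φ.gc X i))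
  rw [Φ.rev, φ_gc, h, map_smul, map_smul, φ_gc]

theorem rE_eqC (hB : 0 < B) {i : ℕ} {c : k}
    (h : ∀ t, hpull k (umap_rev t) i (X.g i t) = c • X.g i t) (x : S.Hi i) :
    (S.Ii ha).rE i x = c • x := by
  obtain ⟨d, rfl⟩ := Φ.exists_smulC X hB i x
  rw [map_smul, Φ.rE_gc X ha h, smul_comm]

theorem rangeC_le (hB : 0 < B) (t : ℝ) (i : ℕ) :
    LinearMap.range (S.rH t i) ≤ Submodule.span k {S.rH t i (Φ.gc X i)} := by
  rintro _ ⟨x, rfl⟩
  obtain ⟨c, rfl⟩ := Φ.exists_smulC X hB i x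
  rw [map_smul]
  exact Submodule.smul_mem _ _ (Submodule.mem_span_singleton_self _)

theorem rkC (hB : 0 < B) (t : ℝ) (i : ℕ) : finrank k (LinearMap.range (S.rH t i)) ≤ 1 :=
  (Submodule.finrank_mono (Φ.rangeC_le X hB t i)).trans
    ((finrank_span_le_card _).trans (by simp))

theorem rH_ne_iffC (hB : 0 < B) (t : ℝ) (i : ℕ) : S.rH t i ≠ 0 ↔ X.g i t ≠ 0 := by
  rw [← Φ.rH_gc_ne X]
  constructor
  · intro h h0
    apply h
    ext x
    obtain ⟨c, rfl⟩ := Φ.exists_smulC X hB i x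
    rw [map_smul, h0, smul_zero, LinearMap.zero_apply]
  · intro h h0
    apply h
    rw [h0, LinearMap.zero_apply]

/-- **births** -/
theorem birthsC (hB : 0 < B) : S.Births e q B B where
  e_mono := X.e_mono
  e_par := X.e_par
  birth0 t ht _ := (Φ.rH_ne_iffC X hB t _).2 (X.birth0 t ht)
  birth i s t hs _ _ hst h := by
    have h1 := X.birth i s hs.le ((Φ.rH_ne_iffC X hB s _).1 h)
    refine (Φ.rH_ne_iffC X hB t _).2 fun h0 => h1 ?_
    rw [← X.res_g _ _ _ hst, h0, map_zero]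

/-- **stable images** -/
theorem stableC (hB : 0 < B) {s t : ℝ} (hs : 0 ≤ s) (h : s ≤ s + B) (ht : s ≤ t) (i : ℕ) :
    LinearMap.range ((S.TH i).ρ s (s + B) h) ≤ LinearMap.range ((S.TH i).ρ s t ht) := by
  rintro _ ⟨x, rfl⟩
  obtain ⟨c, hc⟩ := Φ.spanC X hs hB h le_rfl x
  exact ⟨c • S.rH t i (Φ.gc X i), by rw [hc, map_smul, ρ_gc]⟩

include ha in
/-- the global classes at the level `s` are the stable images -/
theorem range_rH_eqC (hB : 0 < B) {s T : ℝ} (hs : 0 ≤ s) (h : s ≤ T) (hT : s + B ≤ T) (i : ℕ) :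
    LinearMap.range (S.rH s i) = LinearMap.range ((S.TH i).ρ s T h) := by
  refine S.range_rH_eq ha h i fun t _ hst => ?_
  refine le_trans ?_ (Φ.stableC X hB hs (by linarith) hst i)
  rintro _ ⟨x, rfl⟩
  refine ⟨(S.TH i).ρ (s + B) T hT x, ?_⟩
  exact (S.TH i).ρ_ρ _ _ _ _ _ _

/-- a global class of degree `0` is seen at the levels where the constant `1` is not `0` -/
theorem inj0C (hB : 0 < B) {t : ℝ} (hg : X.g 0 t ≠ 0) (x : S.Hi 0) (hx : S.rH t 0 x = 0) :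
    x = 0 := by
  obtain ⟨c, rfl⟩ := Φ.exists_smulC X hB 0 x
  rw [map_smul, smul_eq_zero] at hx
  rcases hx with h | h
  · rw [h, zero_smul]
  · exact absurd h ((Φ.rH_gc_ne X).2 hg)

include ha in
/-- **lifts, `s = 1`** -/
theorem liftC1 (h2 : (2 : k) ≠ 0) (hq : q < 2) (hs : s = 1) (hB : 0 < B) (n : ℕ)
    (hn : n % 2 = q) : Function.Surjective (S.πi n) := by
  subst hs
  have h0 : ∀ x : S.Hi 0, (S.Ii ha).rE 0 x = (1 : k) • x := fun x =>
    Φ.rE_eqC X ha hB (fun t => by simpa using X.rev_zero t) x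
  refine S.lift_of_type ha h2 (S.revOp ha) q hq (fun n hn x => ?_) (fun n hn x => ?_) n hn
  · rcases Nat.eq_zero_or_pos n with rfl | h
    · have h1 : (-1 : k) ^ (0 / 2) = 1 := by simp
      rw [h1]; exact h0 x
    · exact Φ.rE_eqC X ha hB (fun t => by rw [X.rev_x n t h hn]; simp) x
  · rcases Nat.eq_zero_or_pos n with rfl | h
    · have h1 : (-1 : k) ^ ((0 + 1) / 2) = 1 := by simp
      rw [h1]; exact h0 x
    · exact Φ.rE_eqC X ha hB (fun t => by rw [X.rev_y n t h hn]; simp) x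

include ha in
/-- **lifts, any sign** -/
theorem liftC (h2 : (2 : k) ≠ 0) (hq : q < 2) (hs : s * s = 1) (hB : 0 < B)
    {t : ℝ} (hodd : ∀ i, i % 2 = 1 → Subsingleton (S.H t i)) (hg : X.g 0 t ≠ 0) (n : ℕ)
    (hn : n % 2 = q) : Function.Surjective (S.πi n) :=
  S.lift_of_type' ha h2 (S.revOp ha) q hq (c := (s : k)) (by rw [← Int.cast_mul, hs, Int.cast_one])
    (c₀ := 1) (by ring)
    (fun n h0 hn x => Φ.rE_eqC X ha hB (fun t => X.rev_x n t (Nat.pos_of_ne_zero h0) hn) x)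
    (fun n h0 hn x => Φ.rE_eqC X ha hB (fun t => X.rev_y n t (Nat.pos_of_ne_zero h0) hn) x)
    (fun x => Φ.rE_eqC X ha hB (fun t => by simpa using X.rev_zero t) x) hodd
    (Φ.inj0C X hB hg) n hn

include ha in
/-- **the remaining fields of `PSysB`** from lifts -/
theorem restC_of_lift (h2 : (2 : k) ≠ 0) (hq : q < 2) (hB : 0 < B) {K : ℕ}
    (lift : ∀ i, i % 2 = q → Function.Surjective (S.πi i))
    (topH : ∀ t, 0 < t → t ∉ crit → ∃ N, ∀ i ≥ N, Subsingleton (S.H t i))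
    (bars : ∀ t, 0 < t → t ∉ crit → ∀ m, ∀ T (h : t ≤ T), t + B ≤ T →
      ∑ i ∈ Finset.range m, (finrank k (S.H t i) -
        finrank k (LinearMap.range ((S.TH i).ρ t T h))) ≤ K)
    (reg : ∀ s t (h : s ≤ t), 0 < s → (∀ x ∈ Set.Icc s t, x ∉ crit) →
      ∀ i, Function.Bijective ((S.TH i).ρ s t h))
    (rel : ∀ s t (h : s ≤ t), 0 < s → s ∉ crit → t ∉ crit → (crit ∩ Set.Ioo s t).Subsingleton →
      Nonempty (RelSeq k (S.F t) (S.F s) (fun i => (S.TF i).ρ s t h) (S.I t).rF (S.I s).rF)) :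
    S.RestC e q K where
  two_ne := h2
  q_lt := hq
  lift := lift
  topH := topH
  bars t h0 ht m := by
    refine le_trans (le_of_eq (Finset.sum_congr rfl fun i _ => ?_))
      (bars t h0 ht m (t + B) (by linarith) le_rfl)
    rw [Φ.range_rH_eqC X ha hB h0.le (by linarith) le_rfl i]
  reg := reg
  rel := rel
  rk i t _ _ := Φ.rkC X hB t (e i)
  e_ge := X.e_ge
  gap i t _ _ h := by
    by_contra h'
    exact (Φ.rH_ne_iffC X hB t (e i - 1)).1 h' (X.gap i t t ((Φ.rH_ne_iffC X hB t (e i)).1 h))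

include ha in
/-- **the remaining fields of `PSysB`**: `s = 1`, or `s = -1` and a low level `t₀` with cohomology
in even degrees -/
theorem restC (h2 : (2 : k) ≠ 0) (hq : q < 2) (hB : 0 < B)
    (hs : s = 1 ∨ (s * s = 1 ∧ ∃ t₀ : ℝ, (∀ i, i % 2 = 1 → Subsingleton (S.H t₀ i)) ∧
      X.g 0 t₀ ≠ 0)) {K : ℕ}
    (topH : ∀ t, 0 < t → t ∉ crit → ∃ N, ∀ i ≥ N, Subsingleton (S.H t i))
    (bars : ∀ t, 0 < t → t ∉ crit → ∀ m, ∀ T (h : t ≤ T), t + B ≤ T →
      ∑ i ∈ Finset.range m, (finrank k (S.H t i) -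
        finrank k (LinearMap.range ((S.TH i).ρ t T h))) ≤ K)
    (reg : ∀ s t (h : s ≤ t), 0 < s → (∀ x ∈ Set.Icc s t, x ∉ crit) →
      ∀ i, Function.Bijective ((S.TH i).ρ s t h))
    (rel : ∀ s t (h : s ≤ t), 0 < s → s ∉ crit → t ∉ crit → (crit ∩ Set.Ioo s t).Subsingleton →
      Nonempty (RelSeq k (S.F t) (S.F s) (fun i => (S.TF i).ρ s t h) (S.I t).rF (S.I s).rF)) :
    S.RestC e q K := by
  refine Φ.restC_of_lift X ha h2 hq hB (fun i hi => ?_) topH bars reg rel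
  rcases hs with hs | ⟨hs, t₀, hodd, hg⟩
  · exact Φ.liftC1 X ha h2 hq hs hB i hi
  · exact Φ.liftC X ha h2 hq hs hB hodd hg i hi

end XIso

end Vale.Agent.P216.B633
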