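import Vale.Agent.P216.AS.Alg707

set_option linter.unusedSectionVars false

/-!
# P216, Theorem B: the lifts of the classes `x_k` from signs (note 12036 (B))

`G : USeq k F H` is a Gysin sequence (for instance the one of the whole loop space, `k = F_p`),
`Op G α δ` an operator on it which commutes with `π`, commutes with `u` up to the sign `α` and with
`d` up to the sign `δ` (reversal: `α = δ = -1`; self map of `M`: `α = δ = 1`).
If enough of these operators act on the `H e` by scalars `σ i e` then `d` vanishes on `H (n + 1)`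
for sign reasons, i.e. `π (n + 1)` is onto: `surjective_of_signs`.
-/

open Module LinearMap

namespace Vale.Agent.P216.B633

open Vale.Agent.P216.AS (USeq)

section Gen

variable {k : Type*} [Field k] {F H : ℕ → Type*}
  [∀ n, AddCommGroup (F n)] [∀ n, Module k (F n)]
  [∀ n, AddCommGroup (H n)] [∀ n, Module k (H n)]

/-- `u ^ m F` -/
def Dv (u : ∀ n, F n →ₗ[k] F (n + 2)) : ℕ → ∀ n, Submodule k (F n)
  | 0, _ => ⊤
  | _ + 1, 0 => ⊥
  | _ + 1, 1 => ⊥
  | m + 1, n + 2 => (Dv u m n).map (u n)

theorem Dv_eq_bot (u : ∀ n, F n →ₗ[k] F (n + 2)) (m n : ℕ) (h : n < 2 * m) : Dv u m n = ⊥ := by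
  induction m generalizing n with
  | zero => omega
  | succ m ih =>
    rcases n with _ | _ | n
    · rfl
    · rfl
    · rw [Dv, ih n (by omega), Submodule.map_bot]

/-- operators on a Gysin sequence -/
structure Op (G : USeq k F H) (α δ : k) where
  A : ∀ n, F n →ₗ[k] F n
  B : ∀ n, H n →ₗ[k] H n
  A2 : ∀ n x, A n (A n x) = x
  hα : α * α = 1
  hδ : δ * δ = 1
  hπ : ∀ n x, B n (G.π n x) = G.π n (A n x)
  hu : ∀ n x, A (n + 2) (G.u n x) = α • G.u n (A n x)
  hd : ∀ n x, A n (G.d n x) = δ • G.d n (B (n + 1) x)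

variable {G : USeq k F H} {α δ : k} (O : Op G α δ)

theorem Op.mem_Dv (m n : ℕ) {x : F n} (hx : x ∈ Dv G.u m n) : O.A n x ∈ Dv G.u m n := by
  induction m generalizing n with
  | zero => exact Submodule.mem_top
  | succ m ih =>
    rcases n with _ | _ | n
    · have : x = 0 := hx
      rw [this, map_zero]; exact Submodule.zero_mem _
    · have : x = 0 := hx
      rw [this, map_zero]; exact Submodule.zero_mem _
    · obtain ⟨y, hy, rfl⟩ := hx
      rw [O.hu]
      exact Submodule.smul_mem _ _ ⟨_, ih n hy, rfl⟩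

/-- one more division by `u` -/
theorem Op.step (h2 : (2 : k) ≠ 0) (m n : ℕ) {z : F n} (hz : z ∈ Dv G.u m n) {s : k}
    (hs : s * s = 1) (hAz : O.A n z = s • z)
    (hne : ∀ e, e + 2 * m = n → ∀ h : H e, O.B e h = (s * α ^ m) • h → h = 0) :
    z ∈ Dv G.u (m + 1) n := by
  induction m generalizing n s with
  | zero =>
    have h1 : G.π n z = 0 := by
      apply hne n (by omega)
      rw [O.hπ, hAz, map_smul, pow_zero, mul_one]
    rcases n with _ | _ | n
    · have : z = 0 := G.inj0 (by rw [h1, map_zero])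
      rw [this]; exact Submodule.zero_mem _
    · have : z = 0 := G.inj1 (Eq.trans h1 (map_zero (G.π 1)).symm)
      rw [this]; exact Submodule.zero_mem _
    · obtain ⟨w, rfl⟩ := (G.ex3 n z).1 h1
      exact ⟨w, Submodule.mem_top, rfl⟩
  | succ m ih =>
    rcases n with _ | _ | n
    · exact hz
    · exact hz
    · obtain ⟨z₁, hz₁, rfl⟩ := hz
      have hαs : (α * s) * (α * s) = 1 := by
        rw [mul_mul_mul_comm, O.hα, hs, one_mul]
      let z₂ : F n := (2 : k)⁻¹ • (z₁ + (α * s) • O.A n z₁)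
      have hz₂ : z₂ ∈ Dv G.u m n :=
        Submodule.smul_mem _ _ (Submodule.add_mem _ hz₁ (Submodule.smul_mem _ _
          (O.mem_Dv m n hz₁)))
      have h3 : G.u n (O.A n z₁) = (α * s) • G.u n z₁ := by
        have h4 : α • (α • G.u n (O.A n z₁)) = α • (s • G.u n z₁) := by
          rw [← O.hu, hAz]
        rw [smul_smul, O.hα, one_smul, smul_smul] at h4
        exact h4
      have h4 : G.u n z₂ = G.u n z₁ := by
        change G.u n ((2 : k)⁻¹ • (z₁ + (α * s) • O.A n z₁)) = _
        rw [map_smul, map_add, map_smul, h3, smul_smul, hαs, one_smul, ← two_smul k,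
          smul_smul, inv_mul_cancel₀ h2, one_smul]
      have h5 : O.A n z₂ = (α * s) • z₂ := by
        change O.A n ((2 : k)⁻¹ • (z₁ + (α * s) • O.A n z₁)) = (α * s) • ((2 : k)⁻¹ • _)
        rw [map_smul, map_add, map_smul, O.A2, smul_comm]
        congr 1
        rw [smul_add, smul_smul, hαs, one_smul]
        abel
      have h6 := ih n hz₂ hαs h5 (by
        intro e he h hh
        apply hne e (by omega) h
        rw [hh, pow_succ]
        congr 1
        ring)
      exact ⟨z₂, h6, h4⟩

/-- the vanishing theorem -/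
theorem eq_zero_of_signs (h2 : (2 : k) ≠ 0) {ι : Type*} {α δ : ι → k}
    (O : ∀ i, Op G (α i) (δ i)) (n : ℕ) (z : F n) (s : ι → k) (hs : ∀ i, s i * s i = 1)
    (hA : ∀ i, (O i).A n z = s i • z)
    (hne : ∀ m e, e + 2 * m = n → ∃ i, ∀ h : H e, (O i).B e h = (s i * (α i) ^ m) • h → h = 0) :
    z = 0 := by
  have key : ∀ m, z ∈ Dv G.u m n := by
    intro m
    induction m with
    | zero => exact Submodule.mem_top
    | succ m ih =>
      rcases Nat.lt_or_ge n (2 * m) with h | h
      · have h1 := ih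
        rw [Dv_eq_bot _ _ _ h] at h1
        have : z = 0 := h1
        rw [this]; exact Submodule.zero_mem _
      · obtain ⟨i, hi⟩ := hne m (n - 2 * m) (by omega)
        refine (O i).step h2 m n ih (hs i) (hA i) ?_
        intro e he
        obtain rfl : e = n - 2 * m := by omega
        exact hi
  have h1 := key (n + 1)
  rw [Dv_eq_bot _ _ _ (by omega)] at h1
  exact h1

/-- **the lifts exist for sign reasons**: every operator acts on `H e` by the scalar `σ i e` -/
theorem surjective_of_signs (h2 : (2 : k) ≠ 0) {ι : Type*} {α δ : ι → k}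
    (O : ∀ i, Op G (α i) (δ i)) (σ : ι → ℕ → k) (hσ : ∀ i e, σ i e * σ i e = 1)
    (hB : ∀ i e (x : H e), (O i).B e x = σ i e • x) (n : ℕ)
    (hne : Subsingleton (H (n + 1)) ∨ ∀ m e, e + 2 * m = n →
      Subsingleton (H e) ∨ ∃ i, σ i e ≠ δ i * σ i (n + 1) * (α i) ^ m) :
    Function.Surjective (G.π (n + 1)) := by
  intro x
  rcases hne with hsub | hne
  · exact ⟨0, Subsingleton.elim _ _⟩
  apply (G.ex1 n x).1
  by_cases hι : Nonempty ι
  · refine eq_zero_of_signs h2 O n (G.d n x) (fun i => δ i * σ i (n + 1)) (fun i => ?_)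
      (fun i => ?_) ?_
    · rw [mul_mul_mul_comm, (O i).hδ, hσ, one_mul]
    · rw [(O i).hd, hB, map_smul, smul_smul]
    · intro m e he
      rcases hne m e he with h | ⟨i, hi⟩
      · exact ⟨hι.some, fun h _ => Subsingleton.elim _ _⟩
      · refine ⟨i, fun h hh => ?_⟩
        rw [hB, ← sub_eq_zero, ← sub_smul, smul_eq_zero, sub_eq_zero] at hh
        exact hh.resolve_left hi
  · -- no operators: all groups vanish
    have key : ∀ m, G.d n x ∈ Dv G.u m n := by
      intro m
      induction m with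
      | zero => exact Submodule.mem_top
      | succ m ih =>
        have gen : ∀ m n (z : F n), (∀ e, e + 2 * m = n → Subsingleton (H e)) →
            z ∈ Dv G.u m n → z ∈ Dv G.u (m + 1) n := by
          intro m
          induction m with
          | zero =>
            intro n z hsub _
            have := hsub n (by omega)
            rcases n with _ | _ | n
            · have : z = 0 := G.inj0 (Subsingleton.elim _ _)
              rw [this]; exact Submodule.zero_mem _
            · have : z = 0 := G.inj1 (Subsingleton.elim (α := H 1) _ _)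
              rw [this]; exact Submodule.zero_mem _
            · obtain ⟨w, rfl⟩ := (G.ex3 n z).1 (Subsingleton.elim _ _)
              exact ⟨w, Submodule.mem_top, rfl⟩
          | succ m ih =>
            intro n z hsub hz
            rcases n with _ | _ | n
            · exact hz
            · exact hz
            · obtain ⟨w, hw, rfl⟩ := hz
              exact ⟨w, ih n w (fun e he => hsub e (by omega)) hw, rfl⟩
        refine gen m n _ (fun e he => ?_) ih
        rcases hne m e he with h | ⟨i, _⟩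
        · exact h
        · exact absurd ⟨i⟩ hι
    have h1 := key (n + 1)
    rw [Dv_eq_bot _ _ _ (by omega)] at h1
    exact h1

end Gen

/-! ### The signs of the sphere -/

/-- sign of the reversal on `x_k` for `n` even -/
def epsE (k : ℕ) : ℤ := (-1) ^ (k * (k + 1) / 2)

theorem epsE_add_two_mul (j i : ℕ) : epsE (j + 2 * i) = epsE j * (-1) ^ i := by
  unfold epsE
  have h : (j + 2 * i) * (j + 2 * i + 1) = j * (j + 1) + 2 * (2 * (i * j + i * i) + i) := by ring
  rw [h, Nat.add_mul_div_left _ _ two_pos, pow_add, pow_add, pow_mul]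
  simp

/-- `n` even: `eps_k (-1)^m = - eps_j` if `(k - j) (n - 1) = 2 m + 2` -/
theorem sign_even {n k j m : ℕ} (hn : Even n) (h4 : 2 ≤ n) (hk : Odd k) (hj : Odd j)
    (h : k * (n - 1) = j * (n - 1) + 2 * m + 2) : epsE k * (-1) ^ m = - epsE j := by
  have hlt : j ≤ k := by
    by_contra hc
    have : k * (n - 1) ≤ j * (n - 1) := Nat.mul_le_mul_right _ (by omega)
    omega
  obtain ⟨i, rfl⟩ : ∃ i, k = j + 2 * i := ⟨(k - j) / 2, by
    obtain ⟨a, rfl⟩ := hk
    obtain ⟨b, rfl⟩ := hj
    omega⟩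
  have h1 : m + 1 = i * (n - 1) := by
    have : (j + 2 * i) * (n - 1) = j * (n - 1) + 2 * (i * (n - 1)) := by ring
    omega
  obtain ⟨a, rfl⟩ := hn
  have h3 : a + a - 1 = 2 * (a - 1) + 1 := by omega
  rw [h3] at h1
  have h5 : (-1 : ℤ) ^ (m + 1) = (-1) ^ i := by
    rw [h1, show i * (2 * (a - 1) + 1) = 2 * (i * (a - 1)) + i by ring, pow_add, pow_mul]
    simp
  rw [pow_succ] at h5
  have h6 : (-1 : ℤ) ^ i * (-1) ^ i = 1 := by rw [← mul_pow]; simp
  rw [epsE_add_two_mul, show (-1 : ℤ) ^ m = - (-1) ^ i by linarith]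
  linear_combination (- epsE j) * h6

/-- `n` odd, `k - j` even: `m` is odd -/
theorem sign_odd {n k j m : ℕ} (hn : Odd n) (h2 : 2 ≤ n) (hkj : (-1 : ℤ) ^ k = (-1) ^ j)
    (h : k * (n - 1) = j * (n - 1) + 2 * m + 2) : (-1 : ℤ) ^ k * (-1) ^ m = - (-1) ^ j := by
  have hlt : j ≤ k := by
    by_contra hc
    have : k * (n - 1) ≤ j * (n - 1) := Nat.mul_le_mul_right _ (by omega)
    omega
  obtain ⟨l, rfl⟩ := Nat.exists_eq_add_of_le hlt
  have hl : Even l := by
    rw [pow_add] at hkj
    have h0 : (-1 : ℤ) ^ j * (-1) ^ j = 1 := by rw [← mul_pow]; simp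
    have h3 : (-1 : ℤ) ^ l = 1 := by
      linear_combination (-1 : ℤ) ^ j * hkj - ((-1 : ℤ) ^ l - 1) * h0
    rcases Nat.even_or_odd l with h | h
    · exact h
    · rw [h.neg_one_pow] at h3
      norm_num at h3
  obtain ⟨i, rfl⟩ := hl
  obtain ⟨a, rfl⟩ := hn
  have h1 : m + 1 = 2 * (i * a) := by
    have : (j + (i + i)) * (2 * a + 1 - 1) = j * (2 * a + 1 - 1) + 2 * (2 * (i * a)) := by
      rw [Nat.add_sub_cancel]; ring
    omega
  have h5 : (-1 : ℤ) ^ (m + 1) = 1 := by
    rw [h1, pow_mul]; simp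
  rw [pow_succ] at h5
  rw [show (-1 : ℤ) ^ m = -1 by linarith, hkj]
  ring

/-- `n = 3 mod 4`: no condition on `k - j` -/
theorem sign_three {n k j m : ℕ} (hn : n % 4 = 3)
    (h : k * (n - 1) = j * (n - 1) + 2 * m + 2) : (-1 : ℤ) ^ k * (-1) ^ m = - (-1) ^ j := by
  have hlt : j ≤ k := by
    by_contra hc
    have : k * (n - 1) ≤ j * (n - 1) := Nat.mul_le_mul_right _ (by omega)
    omega
  obtain ⟨l, rfl⟩ := Nat.exists_eq_add_of_le hlt
  obtain ⟨a, rfl⟩ : ∃ a, n = 4 * a + 3 := ⟨n / 4, by omega⟩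
  have h1 : m + 1 = l * (2 * a + 1) := by
    have : (j + l) * (4 * a + 3 - 1) = j * (4 * a + 3 - 1) + 2 * (l * (2 * a + 1)) := by
      rw [show 4 * a + 3 - 1 = 2 * (2 * a + 1) by omega]; ring
    omega
  have h5 : (-1 : ℤ) ^ (m + 1) = (-1) ^ l := by
    rw [h1, show l * (2 * a + 1) = 2 * (l * a) + l by ring, pow_add, pow_mul]
    simp
  rw [pow_succ] at h5
  have h6 : (-1 : ℤ) ^ l * (-1) ^ l = 1 := by rw [← mul_pow]; simp
  rw [pow_add, show (-1 : ℤ) ^ m = - (-1) ^ l by linarith]
  linear_combination (-(-1 : ℤ) ^ j) * h6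

end Vale.Agent.P216.B633
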