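import Vale.Agent.P216.B633.Lim
import Vale.Agent.P216.B633.Lift
import Vale.Agent.P216.T695.IfaceB

set_option linter.unusedSectionVars false

/-!
# P216, Theorem B, [INF]: the global classes as inverse limits

`TSys k p crit` = what topology delivers level by level (no global classes).
`TSys.Gi` = the Gysin sequence of the limits `Hi n`, `Fi n`; `TSys.Ii` = the reversal on it;
`TSys.glob`, `TSys.lift_sphere` = the fields `glob`, `lift` of `PSysB`; `TSys.toPSysB`.
-/

open Module LinearMap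

namespace Vale.Agent.P216.B633

open Vale.Agent.P216.AS (USeq finrank_of_exact)
open Vale.Agent.P216.T695
open Vale.Agent.P216.Tight923 (Inv)

/-- The level-wise part of `PSysB`. -/
structure TSys (k : Type) [Field k] (p : ℕ) (crit : Set ℝ) where
  H : ℝ → ℕ → Type
  F : ℝ → ℕ → Type
  [agH : ∀ t n, AddCommGroup (H t n)]
  [moH : ∀ t n, Module k (H t n)]
  [agF : ∀ t n, AddCommGroup (F t n)]
  [moF : ∀ t n, Module k (F t n)]
  /-- restriction maps -/
  TH : ∀ n, Tower k fun t => H t n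
  TF : ∀ n, Tower k fun t => F t n
  /-- Gysin sequence and reversal at the level `t` -/
  G : ∀ t, USeq k (F t) (H t)
  I : ∀ t, Inv (G t)
  ρ_u : ∀ n s t h x, (TF (n + 2)).ρ s t h ((G t).u n x) = (G s).u n ((TF n).ρ s t h x)
  ρ_π : ∀ n s t h x, (TH n).ρ s t h ((G t).π n x) = (G s).π n ((TF n).ρ s t h x)
  ρ_d : ∀ n s t h x, (TF n).ρ s t h ((G t).d n x) = (G s).d n ((TH (n + 1)).ρ s t h x)
  ρ_rF : ∀ n s t h x, (TF n).ρ s t h ((I t).rF n x) = (I s).rF n ((TF n).ρ s t h x)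
  ρ_rE : ∀ n s t h x, (TH n).ρ s t h ((I t).rE n x) = (I s).rE n ((TH n).ρ s t h x)
  /-- finiteness -/
  finH : ∀ t, 0 < t → t ∉ crit → ∀ n, FiniteDimensional k (H t n)
  /-- localisation -/
  L : ∀ t, 0 < t → t ∉ crit → Loc k (F t) (H (t / p)) (G t).u
  /-- the localisation is natural -/
  ℓ_ρ : ∀ s t (hs0 : 0 < s) (hs : s ∉ crit) (ht0 : 0 < t) (ht : t ∉ crit) (h : s ≤ t)
    (h' : s / p ≤ t / p) e j x,
    (L s hs0 hs).ℓ e j ((TF e).ρ s t h x) = (TH j).ρ (s / p) (t / p) h' ((L t ht0 ht).ℓ e j x)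

attribute [instance] TSys.agH TSys.moH TSys.agF TSys.moF

/-- a sequence of regular levels going to infinity -/
structure RegCof (crit : Set ℝ) (a : ℕ → ℝ) : Prop extends Tower.Cof a where
  pos : ∀ i, 0 < a i
  reg : ∀ i, a i ∉ crit

/-- critical levels which are locally finite leave room for regular sequences -/
theorem exists_regCof {crit : Set ℝ} (h : ∀ s t : ℝ, s < t → ∃ x ∈ Set.Ioo s t, x ∉ crit) :
    ∃ a, RegCof crit a := by
  choose f hf hf' using fun i : ℕ => h (i + 1 : ℝ) (i + 2 : ℝ) (by linarith)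
  refine ⟨f, ⟨monotone_nat_of_le_succ fun i => ?_, fun t => ?_⟩, fun i => ?_, hf'⟩
  · have h1 := (hf i).2
    have h2 := (hf (i + 1)).1
    push_cast at h2
    linarith
  · obtain ⟨i, hi⟩ := exists_nat_ge t
    exact ⟨i, by have := (hf i).1; linarith⟩
  · have := (hf i).1
    have h3 : (0 : ℝ) ≤ i := Nat.cast_nonneg i
    linarith

/-- `F` is finite dimensional if `H` is -/
theorem finF_of_finH {k : Type*} [Field k] {F E : ℕ → Type*} [∀ n, AddCommGroup (F n)]
    [∀ n, Module k (F n)] [∀ n, AddCommGroup (E n)] [∀ n, Module k (E n)] (G : USeq k F E)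
    (h : ∀ n, FiniteDimensional k (E n)) (n : ℕ) : FiniteDimensional k (F n) := by
  induction n using Nat.strong_induction_on with
  | _ n ih =>
    rcases n with _ | _ | n
    · exact FiniteDimensional.of_injective (G.π 0) G.inj0
    · exact FiniteDimensional.of_injective (G.π 1) G.inj1
    · have := ih n (by omega)
      have h1 : (LinearMap.ker (G.π (n + 2))).FG := by
        rw [LinearMap.exact_iff.1 (G.ex3 n)]
        exact Module.Finite.iff_fg.1 inferInstance
      have h2 : ((⊤ : Submodule k (F (n + 2))).map (G.π (n + 2))).FG :=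
        IsNoetherian.noetherian _
      exact ⟨Submodule.fg_of_fg_map_of_fg_inf_ker (G.π (n + 2)) h2 (by rwa [top_inf_eq])⟩

namespace TSys

variable {k : Type} [Field k] {p : ℕ} {crit : Set ℝ} (S : TSys k p crit)

/-- global classes -/
abbrev Hi (n : ℕ) : Type := (S.TH n).Lim
/-- global equivariant classes -/
abbrev Fi (n : ℕ) : Type := (S.TF n).Lim

/-- restriction of the global classes -/
abbrev rH (t : ℝ) (n : ℕ) : S.Hi n →ₗ[k] S.H t n := (S.TH n).ev t
abbrev rF (t : ℝ) (n : ℕ) : S.Fi n →ₗ[k] S.F t n := (S.TF n).ev t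

def ui (n : ℕ) : S.Fi n →ₗ[k] S.Fi (n + 2) := Tower.map (fun t => (S.G t).u n) (S.ρ_u n)
def πi (n : ℕ) : S.Fi n →ₗ[k] S.Hi n := Tower.map (fun t => (S.G t).π n) (S.ρ_π n)
def di (n : ℕ) : S.Hi (n + 1) →ₗ[k] S.Fi n := Tower.map (fun t => (S.G t).d n) (S.ρ_d n)

theorem rF_ui (t : ℝ) (n : ℕ) (x : S.Fi n) : S.rF t (n + 2) (S.ui n x) = (S.G t).u n (S.rF t n x) :=
  rfl

theorem rH_πi (t : ℝ) (n : ℕ) (x : S.Fi n) : S.rH t n (S.πi n x) = (S.G t).π n (S.rF t n x) := rfl

theorem rF_di (t : ℝ) (n : ℕ) (x : S.Hi (n + 1)) :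
    S.rF t n (S.di n x) = (S.G t).d n (S.rH t (n + 1) x) := rfl

theorem finF (t : ℝ) (h0 : 0 < t) (ht : t ∉ crit) (n : ℕ) : FiniteDimensional k (S.F t n) :=
  finF_of_finH (S.G t) (S.finH t h0 ht) n

variable {a : ℕ → ℝ} (ha : RegCof crit a)

include ha

/-- **the Gysin sequence of the global classes** -/
def Gi : USeq k S.Fi S.Hi where
  u := S.ui
  π := S.πi
  d := S.di
  inj0 x y h := (S.TF 0).ext fun t => (S.G t).inj0 (by
    rw [← rH_πi, ← rH_πi, h])
  surj0 y := by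
    have hb : ∀ t, Function.Bijective ((S.G t).π 0) := fun t => ⟨(S.G t).inj0, (S.G t).surj0⟩
    refine ⟨⟨fun t => (LinearEquiv.ofBijective _ (hb t)).symm (y.1 t), fun s t h => ?_⟩, ?_⟩
    · apply (hb s).1
      rw [← S.ρ_π]
      have h1 : ∀ t, (S.G t).π 0 ((LinearEquiv.ofBijective _ (hb t)).symm (y.1 t)) = y.1 t :=
        fun t => (LinearEquiv.ofBijective _ (hb t)).apply_symm_apply _
      rw [h1, h1]
      exact y.2 s t h
    · refine (S.TH 0).ext fun t => ?_
      exact (LinearEquiv.ofBijective _ (hb t)).apply_symm_apply _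
  inj1 x y h := (S.TF 1).ext fun t => (S.G t).inj1 (by
    rw [← rH_πi, ← rH_πi, h])
  ex1 n := by
    have : ∀ i, FiniteDimensional k (S.F (a i) (n + 1)) := fun i =>
      S.finF _ (ha.pos i) (ha.reg i) _
    exact Tower.exact ha.toCof _ _ _ _ fun t => (S.G t).ex1 n
  ex2 n := by
    have : ∀ i, FiniteDimensional k (S.H (a i) (n + 1)) := fun i =>
      S.finH _ (ha.pos i) (ha.reg i) _
    exact Tower.exact ha.toCof _ _ _ _ fun t => (S.G t).ex2 n
  ex3 n := by
    have : ∀ i, FiniteDimensional k (S.F (a i) n) := fun i =>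
      S.finF _ (ha.pos i) (ha.reg i) _
    exact Tower.exact ha.toCof _ _ _ _ fun t => (S.G t).ex3 n

/-- **the reversal on the global classes** -/
def Ii : Inv (S.Gi ha) where
  rF n := Tower.map (fun t => (S.I t).rF n) (S.ρ_rF n)
  rE n := Tower.map (fun t => (S.I t).rE n) (S.ρ_rE n)
  rF2 n _ := (S.TF n).ext fun t => (S.I t).rF2 n _
  rE2 n _ := (S.TH n).ext fun t => (S.I t).rE2 n _
  hπ n _ := (S.TH n).ext fun t => (S.I t).hπ n _
  hu n _ := (S.TF (n + 2)).ext fun t => (S.I t).hu n _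
  hd n _ := (S.TF n).ext fun t => (S.I t).hd n _

theorem rH_rE (t : ℝ) (n : ℕ) (x : S.Hi n) :
    S.rH t n ((S.Ii ha).rE n x) = (S.I t).rE n (S.rH t n x) := rfl

/-- the reversal as an operator -/
def revOp : Op (S.Gi ha) (-1) (-1) where
  A := (S.Ii ha).rF
  B := (S.Ii ha).rE
  A2 := (S.Ii ha).rF2
  hα := by ring
  hδ := by ring
  hπ := (S.Ii ha).hπ
  hu n x := by rw [(S.Ii ha).hu, neg_one_smul]
  hd n x := by rw [(S.Ii ha).hd, neg_one_smul]

/-- **the localisation of a global class is a global class** -/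
theorem glob (hp : 0 < p) (t : ℝ) (h0 : 0 < t) (h : t ∉ crit) (e j : ℕ) (x : S.Fi e) :
    (S.L t h0 h).ℓ e j (S.rF t e x) ∈ LinearMap.range (S.rH (t / p) j) := by
  have hp' : (0 : ℝ) < p := Nat.cast_pos.2 hp
  have hb : Tower.Cof fun i => a i / p := ⟨fun i j hij =>
    div_le_div_of_nonneg_right (ha.mono hij) hp'.le, fun s => by
    obtain ⟨i, hi⟩ := ha.top (s * p)
    exact ⟨i, (le_div_iff₀ hp').2 hi⟩⟩
  obtain ⟨y, hy⟩ := Tower.exists_ext (S := S.TH j) hb
    (fun i => (S.L (a i) (ha.pos i) (ha.reg i)).ℓ e j (S.rF (a i) e x)) (fun i l hil => by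
      rw [← S.ℓ_ρ (a i) (a l) (ha.pos i) (ha.reg i) (ha.pos l) (ha.reg l) (ha.mono hil)]
      rw [(S.TF e).ρ_ev])
  obtain ⟨i, hi⟩ := ha.top t
  refine ⟨y, ?_⟩
  have h' : t / p ≤ a i / p := div_le_div_of_nonneg_right hi hp'.le
  rw [← (S.TH j).ρ_ev (t / p) (a i / p) h', hy i,
    ← S.ℓ_ρ t (a i) h0 h (ha.pos i) (ha.reg i) hi h', (S.TF e).ρ_ev]

/-- **lifts from signs** -/
theorem lift_of_signs (h2 : (2 : k) ≠ 0) {ι : Type*} {α δ : ι → k}
    (O : ∀ i, Op (S.Gi ha) (α i) (δ i)) (σ : ι → ℕ → k) (hσ : ∀ i e, σ i e * σ i e = 1)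
    (hB : ∀ i e (x : S.Hi e), (O i).B e x = σ i e • x) (n : ℕ)
    (hne : Subsingleton (S.Hi (n + 1)) ∨ ∀ m e, e + 2 * m = n →
      Subsingleton (S.Hi e) ∨ ∃ i, σ i e ≠ δ i * σ i (n + 1) * (α i) ^ m) :
    Function.Surjective (S.πi (n + 1)) :=
  surjective_of_signs (G := S.Gi ha) h2 O σ hσ hB n hne

/-- the global classes at a level under bounded bars -/
theorem range_rH_eq {t t' : ℝ} (htt' : t ≤ t') (n : ℕ)
    (h : ∀ s, t' ≤ s → ∀ hs : t ≤ s,
      LinearMap.range ((S.TH n).ρ t t' htt') ≤ LinearMap.range ((S.TH n).ρ t s hs)) :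
    LinearMap.range (S.rH t n) = LinearMap.range ((S.TH n).ρ t t' htt') := by
  have : ∀ i, FiniteDimensional k (S.H (a i) n) := fun i => S.finH _ (ha.pos i) (ha.reg i) _
  exact Tower.range_ev_eq ha.toCof htt' h

/-- a class which lifts to arbitrarily high levels is global -/
theorem mem_range_rH {t : ℝ} {n : ℕ} {x : S.H t n}
    (h : ∀ s, ∃ s' ≥ s, ∃ hs : t ≤ s', x ∈ LinearMap.range ((S.TH n).ρ t s' hs)) :
    x ∈ LinearMap.range (S.rH t n) := by
  have : ∀ i, FiniteDimensional k (S.H (a i) n) := fun i => S.finH _ (ha.pos i) (ha.reg i) _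
  exact Tower.mem_range_ev ha.toCof h

/-- **lifts from one operator** `Ω` of reversal type (`α = δ = -1`) acting on `Hi n` by
`(-1)^⌊n/2⌋` if `n ≡ q` and by `(-1)^⌊(n+1)/2⌋` if `n ≢ q (mod 2)` -/
theorem lift_of_type (h2 : (2 : k) ≠ 0) (O : Op (S.Gi ha) (-1) (-1)) (q : ℕ) (hq : q < 2)
    (hx : ∀ n, n % 2 = q → ∀ x : S.Hi n, O.B n x = (-1 : k) ^ (n / 2) • x)
    (hy : ∀ n, n % 2 ≠ q → ∀ x : S.Hi n, O.B n x = (-1 : k) ^ ((n + 1) / 2) • x)
    (n : ℕ) (hn : n % 2 = q) : Function.Surjective (S.πi n) := by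
  rcases n with _ | n
  · exact (S.Gi ha).surj0
  have hsq : ∀ l : ℕ, (-1 : k) ^ l * (-1 : k) ^ l = 1 := fun l => by rw [← mul_pow]; simp
  have hne : ∀ l : ℕ, (-1 : k) ^ l ≠ -((-1 : k) ^ l) := fun l h => h2 (by
    have h1 : (2 : k) * (-1 : k) ^ l = 0 := by linear_combination h
    have h3 : (2 : k) = (2 * (-1 : k) ^ l) * (-1 : k) ^ l := by rw [mul_assoc, hsq, mul_one]
    rw [h3, h1, zero_mul])
  refine S.lift_of_signs ha h2 (ι := Unit) (α := fun _ => -1) (δ := fun _ => -1) (fun _ => O)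
    (fun _ e => if e % 2 = q then (-1 : k) ^ (e / 2) else (-1 : k) ^ ((e + 1) / 2))
    (fun _ e => by split_ifs <;> exact hsq _) (fun _ e x => ?_) n
    (Or.inr fun m e he => Or.inr ⟨(), ?_⟩)
  · split_ifs with h
    · exact hx e h x
    · exact hy e h x
  · rw [if_neg (by omega), if_pos hn]
    have h1 : (n + 1) / 2 = (e + 1) / 2 + m := by omega
    rw [h1, pow_add]
    have h3 : -1 * ((-1 : k) ^ ((e + 1) / 2) * (-1) ^ m) * (-1) ^ m = -((-1 : k) ^ ((e + 1) / 2)) := by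
      linear_combination (-((-1 : k) ^ ((e + 1) / 2))) * hsq m
    rw [h3]
    exact hne _

end TSys

/-! ### The signs of spheres in this form -/

/-- sign of the reversal on `x_j`: `(-1)^{j + (n-1) j (j-1)/2}` -/
def epsS (n j : ℕ) : ℤ := if n % 2 = 1 then (-1) ^ j else epsE j

/-- degree of the auxiliary self map: `1` if `n = 0, 3 (mod 4)`, `-1` if `n = 1, 2 (mod 4)` -/
def lamS (n : ℕ) : ℤ := if n % 4 = 0 ∨ n % 4 = 3 then 1 else -1

theorem npc {a b : ℕ} (h : a % 2 = b % 2) : (-1 : ℤ) ^ a = (-1) ^ b := by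
  rw [neg_one_pow_eq_pow_mod_two, h, ← neg_one_pow_eq_pow_mod_two]

theorem sign_main (n j : ℕ) (hn : 1 ≤ n) (hj : n % 2 = 1 ∨ j % 2 = 1) :
    lamS n ^ j * epsS n j = (-1) ^ (j * (n - 1) / 2) := by
  rcases Nat.even_or_odd' n with ⟨a, rfl | rfl⟩
  · obtain ⟨c, rfl⟩ : ∃ c, j = 2 * c + 1 := ⟨j / 2, by omega⟩
    obtain ⟨b, rfl⟩ : ∃ b, a = b + 1 := ⟨a - 1, by omega⟩
    have h1 : (2 * c + 1) * (2 * (b + 1) - 1) / 2 = 2 * (c * b) + c + b := by
      have : (2 * c + 1) * (2 * (b + 1) - 1) = 2 * (2 * (c * b) + c + b) + 1 := by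
        rw [show 2 * (b + 1) - 1 = 2 * b + 1 by omega]; ring
      omega
    have h3 : epsS (2 * (b + 1)) (2 * c + 1) = (-1) ^ (c + 1) := by
      unfold epsS epsE
      rw [if_neg (by omega)]
      have : (2 * c + 1) * (2 * c + 1 + 1) / 2 = 2 * (c * c + c) + (c + 1) := by
        have : (2 * c + 1) * (2 * c + 1 + 1) = 2 * (2 * (c * c + c) + (c + 1)) := by ring
        omega
      rw [this]
      exact npc (by omega)
    rw [h1, h3]
    rcases Nat.even_or_odd' b with ⟨d, hd | hd⟩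
    · have h4 : lamS (2 * (b + 1)) = -1 := by
        unfold lamS
        rw [if_neg (by omega)]
      rw [h4, ← pow_add]
      exact npc (by omega)
    · have h4 : lamS (2 * (b + 1)) = 1 := by
        unfold lamS
        rw [if_pos (by omega)]
      rw [h4, one_pow, one_mul]
      exact npc (by omega)
  · have h1 : j * (2 * a + 1 - 1) / 2 = j * a := by
      have : j * (2 * a + 1 - 1) = 2 * (j * a) := by rw [Nat.add_sub_cancel]; ring
      omega
    have h3 : epsS (2 * a + 1) j = (-1) ^ j := by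
      unfold epsS
      rw [if_pos (by omega)]
    rw [h1, h3]
    rcases Nat.even_or_odd' a with ⟨d, rfl | rfl⟩
    · have h4 : lamS (2 * (2 * d) + 1) = -1 := by
        unfold lamS
        rw [if_neg (by omega)]
      rw [h4, ← pow_add]
      refine npc ?_
      rw [show j * (2 * d) = 2 * (j * d) by ring]
      omega
    · have h4 : lamS (2 * (2 * d + 1) + 1) = 1 := by
        unfold lamS
        rw [if_pos (by omega)]
      rw [h4, one_pow, one_mul]
      refine npc ?_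
      rw [show j * (2 * d + 1) = 2 * (j * d) + j by ring]
      omega

/-- the same for the classes `y_j` of degree `j (n - 1) + 1` -/
theorem sign_main_y (n j : ℕ) (hn : 1 ≤ n) (hj : n % 2 = 1 ∨ j % 2 = 1) :
    - (lamS n ^ j * epsS n j) = (-1) ^ ((j * (n - 1) + 1 + 1) / 2) := by
  have h : (j * (n - 1) + 1 + 1) / 2 = j * (n - 1) / 2 + 1 := by
    generalize j * (n - 1) = x
    omega
  rw [sign_main n j hn hj, h, pow_succ]
  ring

end Vale.Agent.P216.B633
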