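import Mathlib.LinearAlgebra.Dimension.RankNullity
import Mathlib.LinearAlgebra.FiniteDimensional.Lemmas
import Mathlib.Algebra.Exact.Basic
import Mathlib.Tactic

set_option linter.unusedSectionVars false

/-!
# Inverse limits of finite dimensional spaces over the real line are exact

`Tower k V` = a contravariant functor on `ℝ`, `Tower.Lim` = its limit (a submodule of `∀ t, V t`),
`Tower.exact` = exactness of the limit (Mittag-Leffler), `Tower.mem_range_ev` = an element of `V t`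
which lifts to arbitrarily high levels lifts to the limit.
-/

open Module LinearMap

namespace Vale.Agent.P216.B633

/-! ### Mittag-Leffler for affine subspaces, indexed by `ℕ` -/

section ML

variable {k : Type*} [Field k] {V : ℕ → Type*} [∀ i, AddCommGroup (V i)] [∀ i, Module k (V i)]

/-- the stable image of a system of affine subspaces -/
theorem ml_stable (ρ : ∀ i j, i ≤ j → V j →ₗ[k] V i)
    (ρρ : ∀ i j l (h : i ≤ j) (h' : j ≤ l) x, ρ i j h (ρ j l h' x) = ρ i l (h.trans h') x)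
    (A : ∀ i, Set (V i)) (D : ∀ i, Submodule k (V i)) (hne : ∀ i, (A i).Nonempty)
    (hsub : ∀ i, ∀ a ∈ A i, ∀ b ∈ A i, a - b ∈ D i) (hadd : ∀ i, ∀ a ∈ A i, ∀ d ∈ D i, a + d ∈ A i)
    (hρ : ∀ i j (h : i ≤ j), ∀ a ∈ A j, ρ i j h a ∈ A i) [∀ i, FiniteDimensional k (V i)] (i : ℕ) :
    ∃ J, ∃ hJ : i ≤ J, ∀ a ∈ A J, ∀ j (hj : i ≤ j), ∃ b ∈ A j, ρ i j hj b = ρ i J hJ a := by
  have hD : ∀ i j (h : i ≤ j), ∀ d ∈ D j, ρ i j h d ∈ D i := by
    intro i j h d hd
    obtain ⟨a, ha⟩ := hne j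
    have h1 := hsub i _ (hρ i j h _ (hadd j a ha d hd)) _ (hρ i j h _ ha)
    rwa [map_add, add_sub_cancel_left] at h1
  -- choose `J` with `ρ (D J)` of minimal dimension
  let P : ℕ → Prop := fun n => ∃ J, ∃ hJ : i ≤ J, finrank k ((D J).map (ρ i J hJ)) = n
  have hP : ∃ n, P n := ⟨_, i, le_rfl, rfl⟩
  classical
  obtain ⟨J, hJ, hJn⟩ := Nat.find_spec hP
  have hmin : ∀ j (hj : i ≤ j), finrank k ((D J).map (ρ i J hJ)) ≤
      finrank k ((D j).map (ρ i j hj)) := by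
    intro j hj
    rw [hJn]
    exact Nat.find_min' hP ⟨j, hj, rfl⟩
  refine ⟨J, hJ, fun a ha j hj => ?_⟩
  -- it suffices to treat `j ≥ J`
  have main : ∀ l (hl : J ≤ l), ∃ b ∈ A l, ρ i l (hJ.trans hl) b = ρ i J hJ a := by
    intro l hl
    have hle : (D l).map (ρ i l (hJ.trans hl)) ≤ (D J).map (ρ i J hJ) := by
      rintro _ ⟨d, hd, rfl⟩
      exact ⟨ρ J l hl d, hD J l hl d hd, ρρ _ _ _ _ _ _⟩
    have heq := Submodule.eq_of_le_of_finrank_le hle (hmin l _)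
    obtain ⟨b, hb⟩ := hne l
    have h1 : ρ i J hJ (a - ρ J l hl b) ∈ (D J).map (ρ i J hJ) :=
      ⟨_, hsub J a ha _ (hρ J l hl b hb), rfl⟩
    rw [← heq] at h1
    obtain ⟨d, hd, hd'⟩ := h1
    refine ⟨b + d, hadd l b hb d hd, ?_⟩
    rw [map_add, hd', map_sub, ρρ]
    abel
  obtain ⟨b, hb, hb'⟩ := main (max J j) (le_max_left _ _)
  exact ⟨ρ j _ (le_max_right _ _) b, hρ _ _ _ _ hb, by rw [ρρ, hb']⟩

/-- **Mittag-Leffler.** -/
theorem ml (ρ : ∀ i j, i ≤ j → V j →ₗ[k] V i)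
    (ρid : ∀ i x, ρ i i le_rfl x = x)
    (ρρ : ∀ i j l (h : i ≤ j) (h' : j ≤ l) x, ρ i j h (ρ j l h' x) = ρ i l (h.trans h') x)
    (A : ∀ i, Set (V i)) (D : ∀ i, Submodule k (V i)) (hne : ∀ i, (A i).Nonempty)
    (hsub : ∀ i, ∀ a ∈ A i, ∀ b ∈ A i, a - b ∈ D i) (hadd : ∀ i, ∀ a ∈ A i, ∀ d ∈ D i, a + d ∈ A i)
    (hρ : ∀ i j (h : i ≤ j), ∀ a ∈ A j, ρ i j h a ∈ A i) [∀ i, FiniteDimensional k (V i)] :
    ∃ x : ∀ i, V i, (∀ i, x i ∈ A i) ∧ ∀ i j (h : i ≤ j), ρ i j h (x j) = x i := by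
  let E : ∀ i, Set (V i) := fun i => {x | ∀ j (hj : i ≤ j), ∃ b ∈ A j, ρ i j hj b = x}
  have hE : ∀ i, (E i).Nonempty := by
    intro i
    obtain ⟨J, hJ, h⟩ := ml_stable ρ ρρ A D hne hsub hadd hρ i
    obtain ⟨a, ha⟩ := hne J
    exact ⟨ρ i J hJ a, fun j hj => h a ha j hj⟩
  have hEA : ∀ i, E i ⊆ A i := by
    intro i x hx
    obtain ⟨b, hb, rfl⟩ := hx i le_rfl
    rwa [ρid]
  have hsurj : ∀ i, ∀ x ∈ E i, ∃ y ∈ E (i + 1), ρ i (i + 1) (Nat.le_succ i) y = x := by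
    intro i x hx
    obtain ⟨J, hJ, h⟩ := ml_stable ρ ρρ A D hne hsub hadd hρ (i + 1)
    obtain ⟨b, hb, rfl⟩ := hx J ((Nat.le_succ i).trans hJ)
    exact ⟨ρ (i + 1) J hJ b, fun j hj => h b hb j hj, ρρ _ _ _ _ _ _⟩
  choose! nx hnx1 hnx2 using hsurj
  let x : ∀ i, V i := fun i => Nat.rec (hE 0).some (fun i y => nx i y) i
  have hx : ∀ i, x i ∈ E i := by
    intro i
    induction i with
    | zero => exact (hE 0).some_mem
    | succ i ih => exact hnx1 i _ ih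
  have hstep : ∀ i, ρ i (i + 1) (Nat.le_succ i) (x (i + 1)) = x i := fun i => hnx2 i _ (hx i)
  refine ⟨x, fun i => hEA i (hx i), fun i j h => ?_⟩
  induction j, h using Nat.le_induction with
  | base => exact ρid _ _
  | succ j h ih => rw [← ρρ i j (j + 1) h (Nat.le_succ j), hstep, ih]

end ML

/-! ### Towers over the real line -/

/-- a contravariant functor on the real line -/
structure Tower (k : Type*) [Field k] (V : ℝ → Type*) [∀ t, AddCommGroup (V t)]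
    [∀ t, Module k (V t)] where
  ρ : ∀ s t, s ≤ t → V t →ₗ[k] V s
  ρ_id : ∀ t x, ρ t t le_rfl x = x
  ρ_ρ : ∀ r s t (h : r ≤ s) (h' : s ≤ t) x, ρ r s h (ρ s t h' x) = ρ r t (h.trans h') x

namespace Tower

variable {k : Type*} [Field k]
  {U : ℝ → Type*} [∀ t, AddCommGroup (U t)] [∀ t, Module k (U t)]
  {V : ℝ → Type*} [∀ t, AddCommGroup (V t)] [∀ t, Module k (V t)]
  {W : ℝ → Type*} [∀ t, AddCommGroup (W t)] [∀ t, Module k (W t)]
  (R : Tower k U) (S : Tower k V) (T : Tower k W)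

/-- the limit -/
def Lim : Submodule k (∀ t, V t) where
  carrier := {x | ∀ s t (h : s ≤ t), S.ρ s t h (x t) = x s}
  zero_mem' := fun s t h => by simp
  add_mem' := fun {x y} hx hy s t h => by
    change S.ρ s t h (x t + y t) = x s + y s
    rw [map_add, hx, hy]
  smul_mem' := fun c x hx s t h => by
    change S.ρ s t h (c • x t) = c • x s
    rw [map_smul, hx]

/-- evaluation -/
def ev (t : ℝ) : S.Lim →ₗ[k] V t := (LinearMap.proj t).comp S.Lim.subtype

theorem ev_apply (t : ℝ) (x : S.Lim) : S.ev t x = x.1 t := rfl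

theorem ρ_ev (s t : ℝ) (h : s ≤ t) (x : S.Lim) : S.ρ s t h (S.ev t x) = S.ev s x := x.2 s t h

theorem ext {x y : S.Lim} (h : ∀ t, S.ev t x = S.ev t y) : x = y :=
  Subtype.ext (funext h)

/-- it suffices to compare at high levels -/
theorem ext_of {x y : S.Lim} (h : ∀ t, ∃ t' ≥ t, S.ev t' x = S.ev t' y) : x = y := by
  refine S.ext fun t => ?_
  obtain ⟨t', ht', h1⟩ := h t
  rw [← S.ρ_ev t t' ht', ← S.ρ_ev t t' ht', h1]

variable {R S T}

/-- functoriality -/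
def map (f : ∀ t, U t →ₗ[k] V t) (hf : ∀ s t h x, S.ρ s t h (f t x) = f s (R.ρ s t h x)) :
    R.Lim →ₗ[k] S.Lim where
  toFun x := ⟨fun t => f t (x.1 t), fun s t h => by rw [hf, x.2]⟩
  map_add' x y := Subtype.ext (funext fun t => (f t).map_add _ _)
  map_smul' c x := Subtype.ext (funext fun t => (f t).map_smul _ _)

theorem ev_map (f : ∀ t, U t →ₗ[k] V t) (hf : ∀ s t h x, S.ρ s t h (f t x) = f s (R.ρ s t h x))
    (t : ℝ) (x : R.Lim) : S.ev t (map f hf x) = f t (R.ev t x) := rfl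

/-- a sequence of levels going to infinity -/
structure Cof (a : ℕ → ℝ) : Prop where
  mono : Monotone a
  top : ∀ t, ∃ i, t ≤ a i

theorem Cof.ge {a : ℕ → ℝ} (h : Cof a) (t : ℝ) : ∃ i, ∀ j ≥ i, t ≤ a j := by
  obtain ⟨i, hi⟩ := h.top t
  exact ⟨i, fun j hj => hi.trans (h.mono hj)⟩

/-- extension of a compatible sequence -/
theorem exists_ext {a : ℕ → ℝ} (ha : Cof a) (x : ∀ i, V (a i))
    (hx : ∀ i j (h : i ≤ j), S.ρ (a i) (a j) (ha.mono h) (x j) = x i) :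
    ∃ y : S.Lim, ∀ i, S.ev (a i) y = x i := by
  choose I hI using ha.top
  have key : ∀ t j (h : t ≤ a j), S.ρ t (a j) h (x j) = S.ρ t (a (I t)) (hI t) (x (I t)) := by
    intro t j h
    rcases le_total j (I t) with h1 | h1
    · rw [← hx j (I t) h1, S.ρ_ρ]
    · rw [← hx (I t) j h1, S.ρ_ρ]
  refine ⟨⟨fun t => S.ρ t (a (I t)) (hI t) (x (I t)), fun s t h => ?_⟩, fun i => ?_⟩
  · rw [S.ρ_ρ]
    exact key s (I t) _
  · change S.ρ (a i) (a (I (a i))) (hI (a i)) (x (I (a i))) = x i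
    rw [← key (a i) i le_rfl, S.ρ_id]

/-- **the limit over the line of affine subspaces** -/
theorem exists_lim {a : ℕ → ℝ} (ha : Cof a) [∀ i, FiniteDimensional k (V (a i))]
    (A : ∀ i, Set (V (a i))) (D : ∀ i, Submodule k (V (a i))) (hne : ∀ i, (A i).Nonempty)
    (hsub : ∀ i, ∀ a ∈ A i, ∀ b ∈ A i, a - b ∈ D i) (hadd : ∀ i, ∀ a ∈ A i, ∀ d ∈ D i, a + d ∈ A i)
    (hρ : ∀ i j (h : i ≤ j), ∀ b ∈ A j, S.ρ (a i) (a j) (ha.mono h) b ∈ A i) :
    ∃ y : S.Lim, ∀ i, S.ev (a i) y ∈ A i := by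
  obtain ⟨x, hxA, hx⟩ := ml (V := fun i => V (a i)) (fun i j h => S.ρ (a i) (a j) (ha.mono h))
    (fun i x => S.ρ_id _ _) (fun i j l h h' x => S.ρ_ρ _ _ _ _ _ _) A D hne hsub hadd hρ
  obtain ⟨y, hy⟩ := exists_ext ha x hx
  exact ⟨y, fun i => by rw [hy]; exact hxA i⟩

/-- **exactness of the limit** -/
theorem exact {a : ℕ → ℝ} (ha : Cof a) [∀ i, FiniteDimensional k (U (a i))]
    (f : ∀ t, U t →ₗ[k] V t) (hf : ∀ s t h x, S.ρ s t h (f t x) = f s (R.ρ s t h x))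
    (g : ∀ t, V t →ₗ[k] W t) (hg : ∀ s t h x, T.ρ s t h (g t x) = g s (S.ρ s t h x))
    (hex : ∀ t, Function.Exact (f t) (g t)) :
    Function.Exact (map f hf : R.Lim →ₗ[k] S.Lim) (map g hg : S.Lim →ₗ[k] T.Lim) := by
  intro y
  constructor
  · intro hy
    have hy' : ∀ t, g t (S.ev t y) = 0 := fun t => by
      rw [← ev_map g hg, hy, map_zero]
    obtain ⟨x, hx⟩ := exists_lim (S := R) ha (fun i => {u | f (a i) u = S.ev (a i) y})
      (fun i => LinearMap.ker (f (a i)))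
      (fun i => (hex (a i) _).1 (hy' (a i)))
      (fun i u hu v hv => by
        rw [LinearMap.mem_ker, map_sub, hu.out, hv.out, sub_self])
      (fun i u hu d hd => by
        change f (a i) (u + d) = _
        rw [map_add, hu.out, LinearMap.mem_ker.1 hd, add_zero])
      (fun i j h u hu => by
        change f (a i) (R.ρ _ _ _ u) = _
        rw [← hf, hu.out, S.ρ_ev])
    refine ⟨x, S.ext_of fun t => ?_⟩
    obtain ⟨i, hi⟩ := ha.top t
    exact ⟨a i, hi, by rw [ev_map]; exact hx i⟩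
  · rintro ⟨x, rfl⟩
    refine T.ext fun t => ?_
    rw [ev_map, ev_map, map_zero]
    exact (hex t _).2 ⟨_, rfl⟩

/-- an element which lifts to arbitrarily high levels lifts to the limit -/
theorem mem_range_ev {a : ℕ → ℝ} (ha : Cof a) [∀ i, FiniteDimensional k (V (a i))] {t : ℝ}
    {x : V t} (h : ∀ s, ∃ s' ≥ s, ∃ hs : t ≤ s', x ∈ LinearMap.range (S.ρ t s' hs)) :
    x ∈ LinearMap.range (S.ev t) := by
  -- shift the sequence so that all its members are `≥ t`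
  obtain ⟨i₀, hi₀⟩ := ha.ge t
  let b : ℕ → ℝ := fun i => a (i₀ + i)
  have hb : Cof b := ⟨fun i j h => ha.mono (by omega), fun s => by
    obtain ⟨i, hi⟩ := ha.top s
    exact ⟨i, hi.trans (ha.mono (by omega))⟩⟩
  have hbt : ∀ i, t ≤ b i := fun i => hi₀ _ (by omega)
  have : ∀ i, FiniteDimensional k (V (b i)) := fun i => inferInstance
  obtain ⟨y, hy⟩ := exists_lim (S := S) hb (fun i => {v | S.ρ t (b i) (hbt i) v = x})
    (fun i => LinearMap.ker (S.ρ t (b i) (hbt i)))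
    (fun i => by
      obtain ⟨s', hs', hs, z, hz⟩ := h (b i)
      exact ⟨S.ρ (b i) s' hs' z, by
        change S.ρ t (b i) (hbt i) (S.ρ (b i) s' hs' z) = x
        rw [S.ρ_ρ, hz]⟩)
    (fun i u hu v hv => by
      rw [LinearMap.mem_ker, map_sub, hu.out, hv.out, sub_self])
    (fun i u hu d hd => by
      change S.ρ t (b i) (hbt i) (u + d) = _
      rw [map_add, hu.out, LinearMap.mem_ker.1 hd, add_zero])
    (fun i j h u hu => by
      change S.ρ t (b i) (hbt i) (S.ρ _ _ _ u) = _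
      rw [S.ρ_ρ]
      exact hu.out)
  refine ⟨y, ?_⟩
  rw [← S.ρ_ev t (b 0) (hbt 0)]
  exact hy 0

/-- under bounded bars the global classes at the level `t` are the image of the level `t + B` -/
theorem range_ev_eq {a : ℕ → ℝ} (ha : Cof a) [∀ i, FiniteDimensional k (V (a i))] {t t' : ℝ}
    (htt' : t ≤ t')
    (h : ∀ s, t' ≤ s → ∀ hs : t ≤ s,
      LinearMap.range (S.ρ t t' htt') ≤ LinearMap.range (S.ρ t s hs)) :
    LinearMap.range (S.ev t) = LinearMap.range (S.ρ t t' htt') := by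
  apply le_antisymm
  · rintro _ ⟨x, rfl⟩
    exact ⟨S.ev t' x, S.ρ_ev _ _ _ _⟩
  · intro x hx
    refine mem_range_ev ha fun s => ⟨max s t', le_max_left _ _, htt'.trans (le_max_right _ _), ?_⟩
    exact h _ (le_max_right _ _) _ hx

end Tower

end Vale.Agent.P216.B633
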