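import Vale.Agent.P216.B633.Inf

set_option linter.unusedSectionVars false

/-!
# P216, Theorem B: from the level-wise system to `PSysB`

`ShiftOp` = an operator given by maps from the level `φ t` to the level `t` (pull back under a
self map of `M` of Lipschitz constant `Λ`, `φ t = Λ t`, possibly composed with the reversal);
`ShiftOp.op` = the operator on the global classes.  `TSys.toPSysB` = the assembly.
-/

open Module LinearMap

namespace Vale.Agent.P216.B633

open Vale.Agent.P216.AS (USeq)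
open Vale.Agent.P216.T695
open Vale.Agent.P216.Tight923 (Inv)

/-- functoriality of the limit with a shift of the levels -/
def Tower.shift {k : Type*} [Field k]
    {U : ℝ → Type*} [∀ t, AddCommGroup (U t)] [∀ t, Module k (U t)]
    {V : ℝ → Type*} [∀ t, AddCommGroup (V t)] [∀ t, Module k (V t)]
    {R : Tower k U} {S : Tower k V} {φ : ℝ → ℝ} (hφ : Monotone φ)
    (f : ∀ t, U (φ t) →ₗ[k] V t)
    (hf : ∀ s t h x, S.ρ s t h (f t x) = f s (R.ρ (φ s) (φ t) (hφ h) x)) :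
    R.Lim →ₗ[k] S.Lim where
  toFun x := ⟨fun t => f t (x.1 (φ t)), fun s t h => by rw [hf, x.2]⟩
  map_add' x y := Subtype.ext (funext fun t => (f t).map_add _ _)
  map_smul' c x := Subtype.ext (funext fun t => (f t).map_smul _ _)

namespace TSys

variable {k : Type} [Field k] {p : ℕ} {crit : Set ℝ} (S : TSys k p crit)

/-- operators with a shift of the levels -/
structure ShiftOp (α δ : k) where
  φ : ℝ → ℝ
  mono : Monotone φ
  A : ∀ t n, S.F (φ t) n →ₗ[k] S.F t n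
  B : ∀ t n, S.H (φ t) n →ₗ[k] S.H t n
  hα : α * α = 1
  hδ : δ * δ = 1
  ρA : ∀ n s t h x, (S.TF n).ρ s t h (A t n x) = A s n ((S.TF n).ρ (φ s) (φ t) (mono h) x)
  ρB : ∀ n s t h x, (S.TH n).ρ s t h (B t n x) = B s n ((S.TH n).ρ (φ s) (φ t) (mono h) x)
  hπ : ∀ t n x, B t n ((S.G (φ t)).π n x) = (S.G t).π n (A t n x)
  hu : ∀ t n x, A t (n + 2) ((S.G (φ t)).u n x) = α • (S.G t).u n (A t n x)
  hd : ∀ t n x, A t n ((S.G (φ t)).d n x) = δ • (S.G t).d n (B t (n + 1) x)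
  /-- the operator is an involution on the global classes -/
  sq : ∀ t, ∃ T, ∃ h : t ≤ T, ∃ h' : φ (φ t) ≤ T, ∀ n x,
    A t n (A (φ t) n ((S.TF n).ρ _ _ h' x)) = (S.TF n).ρ _ _ h x

variable {S}

/-- the operator on the global classes -/
def ShiftOp.op {α δ : k} (O : S.ShiftOp α δ) {a : ℕ → ℝ} (ha : RegCof crit a) :
    Op (S.Gi ha) α δ where
  A n := Tower.shift O.mono (fun t => O.A t n) (O.ρA n)
  B n := Tower.shift O.mono (fun t => O.B t n) (O.ρB n)
  A2 n x := (S.TF n).ext fun t => by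
    obtain ⟨T, h, h', hT⟩ := O.sq t
    change O.A t n (O.A (O.φ t) n (x.1 (O.φ (O.φ t)))) = x.1 t
    rw [← x.2 _ _ h', hT, x.2]
  hα := O.hα
  hδ := O.hδ
  hπ n x := (S.TH n).ext fun t => O.hπ t n _
  hu n x := (S.TF (n + 2)).ext fun t => O.hu t n _
  hd n x := (S.TF n).ext fun t => O.hd t n _

theorem ShiftOp.rH_op {α δ : k} (O : S.ShiftOp α δ) {a : ℕ → ℝ} (ha : RegCof crit a) (t : ℝ)
    (n : ℕ) (x : S.Hi n) : S.rH t n ((O.op ha).B n x) = O.B t n (S.rH (O.φ t) n x) := rfl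

variable (S)

/-- the remaining fields of `PSysB` -/
structure Rest (q K : ℕ) (B0 B1 : ℝ) : Prop where
  two_ne : (2 : k) ≠ 0
  q_lt : q < 2
  lift : ∀ n, n % 2 = q → Function.Surjective (S.πi n)
  topH : ∀ t, 0 < t → t ∉ crit → ∃ N, ∀ n ≥ N, Subsingleton (S.H t n)
  /-- bounded finite bars (all parities) -/
  bars : ∀ t, 0 < t → t ∉ crit → ∀ m,
    ∑ n ∈ Finset.range m, (finrank k (S.H t n) - finrank k (LinearMap.range (S.rH t n))) ≤ K
  /-- no critical level between `s` and `t`: the restriction is bijective -/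
  reg : ∀ s t (h : s ≤ t), 0 < s → (∀ x ∈ Set.Icc s t, x ∉ crit) →
    ∀ n, Function.Bijective ((S.TH n).ρ s t h)
  /-- at most one critical level between `s` and `t` -/
  rel : ∀ s t (h : s ≤ t), 0 < s → s ∉ crit → t ∉ crit → (crit ∩ Set.Ioo s t).Subsingleton →
    Nonempty (RelSeq k (S.F t) (S.F s) (fun n => (S.TF n).ρ s t h) (S.I t).rF (S.I s).rF)
  /-- the global classes of parity `q` form lines -/
  rk : ∀ n, n % 2 = q → ∀ t, 0 < t → t ∉ crit → finrank k (LinearMap.range (S.rH t n)) ≤ 1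
  /-- no global class in the degree just below a global class of parity `q` (here `dim M ≥ 4`) -/
  gap : ∀ n, 2 ≤ n → (n + 1) % 2 = q → ∀ t, 0 < t → t ∉ crit → S.rH t (n + 1) ≠ 0 → S.rH t n = 0

/-- births -/
structure Births (e : ℕ → ℕ) (q : ℕ) (B0 B1 : ℝ) : Prop where
  e_mono : StrictMono e
  e_par : ∀ i, e i % 2 = q
  birth0 : ∀ t, B0 ≤ t → t ∉ crit → S.rH t (e 0) ≠ 0
  birth : ∀ i s t, 0 < s → s ∉ crit → t ∉ crit → s + B1 ≤ t →
    S.rH s (e i) ≠ 0 → S.rH t (e (i + 1)) ≠ 0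

/-- **the assembly** -/
def toPSysB (hp : 0 < p) {a : ℕ → ℝ} (ha : RegCof crit a) {q K : ℕ} {B0 B1 : ℝ} {e : ℕ → ℕ}
    (R : S.Rest q K B0 B1) (E : S.Births e q B0 B1) : PSysB k p crit K B0 B1 where
  two_ne := R.two_ne
  q := q
  q_lt := R.q_lt
  H := S.H
  F := S.F
  Hi := S.Hi
  Fi := S.Fi
  G := S.G
  I := S.I
  L := S.L
  ui := S.ui
  πi := S.πi
  rH := S.rH
  rF := S.rF
  rF_u _ _ _ := rfl
  π_rF _ _ _ := rfl
  glob t h0 h e j x := S.glob ha hp t h0 h e j x
  lift := R.lift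
  finH := S.finH
  topH := R.topH
  bars := R.bars
  ρH s t h n := (S.TH n).ρ s t h
  ρF s t h n := (S.TF n).ρ s t h
  ρH_rH s t h n x := (S.TH n).ρ_ev s t h x
  ρF_rF s t h n x := (S.TF n).ρ_ev s t h x
  ρF_u s t h n x := (S.ρ_u n s t h x).symm
  ρF_r s t h n x := (S.ρ_rF n s t h x).symm
  ℓ_ρ := S.ℓ_ρ
  reg := R.reg
  rel := R.rel
  rk := R.rk
  gap := R.gap
  e := e
  e_mono := E.e_mono
  e_par := E.e_par
  birth0 := E.birth0
  birth := E.birth

end TSys

end Vale.Agent.P216.B633
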